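import Vale.Agent.P197.H528.Comb3

/-!
# P197 with multiplicities: exponentially many chains (helper528)
-/

set_option linter.all false

namespace Vale.Agent.P197.H528

open Finset Vale.Agent.P197

theorem has_double {k b : ℕ} {ν : YoungDiagram} {s' : Bool} {τ τ' σ : YoungDiagram}
    (hne : τ ≠ τ') (t1 : τ ∈ step true ((k + 2) * (k + 2 + 1) / 2) ν)
    (t2 : τ' ∈ step true ((k + 2) * (k + 2 + 1) / 2) ν)
    (s1 : σ ∈ step s' (k * (k + 1) / 2) τ) (s2 : σ ∈ step s' (k * (k + 1) / 2) τ')
    (h : Has b k σ) : Has (2 * b) (k + 4) ν := by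
  obtain ⟨ε, hε⟩ := h
  let ε' : ℕ → Bool := fun i => if i = k + 4 then true else if i = k + 2 then s' else ε i
  have a1 : ε' (k + 2 + 2) = true := by simp [ε']
  have a2 : ε' (k + 2) = s' := by simp [ε']
  have a3 : chains ε' k σ = chains ε k σ := chains_congr k σ (fun i hi => by
    have b1 : i ≠ k + 4 := by omega
    have b2 : i ≠ k + 2 := by omega
    simp [ε', b1, b2])
  have a4 : chains ε' k σ ≤ chains ε' (k + 2) τ := chains_single (by rw [a2]; exact s1)
  have a5 : chains ε' k σ ≤ chains ε' (k + 2) τ' := chains_single (by rw [a2]; exact s2)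
  have a6 : chains ε' (k + 2) τ + chains ε' (k + 2) τ' ≤ chains ε' (k + 2 + 2) ν :=
    chains_pair hne (by rw [a1]; exact t1) (by rw [a1]; exact t2)
  refine ⟨ε', ?_⟩
  have e6 : k + 2 + 2 = k + 4 := by omega
  rw [e6] at a6
  omega

/-- The hook with arm and leg `a`. -/
def hookD (a : ℕ) : YoungDiagram where
  cells := (Finset.range (a + 1)).image (fun i => (i, 0)) ∪
    (Finset.range (a + 1)).image (fun j => (0, j))
  isLowerSet := by
    intro x y hyx hx
    have h1 : y.1 ≤ x.1 := hyx.1
    have h2 : y.2 ≤ x.2 := hyx.2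
    simp only [Finset.coe_union, Finset.coe_image, Set.mem_union, Set.mem_image,
      Finset.mem_coe, Finset.mem_range] at hx ⊢
    rcases hx with ⟨i, hi, rfl⟩ | ⟨i, hi, rfl⟩
    · left
      refine ⟨y.1, ?_, Prod.ext rfl ?_⟩
      · simp only at h1
        omega
      · simp only at h2
        change 0 = y.2
        omega
    · right
      refine ⟨y.2, ?_, Prod.ext ?_ rfl⟩
      · simp only at h2
        omega
      · simp only at h1
        change 0 = y.1
        omega

theorem mem_hookD {a : ℕ} {c : ℕ × ℕ} :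
    c ∈ hookD a ↔ (c.2 = 0 ∧ c.1 ≤ a) ∨ (c.1 = 0 ∧ c.2 ≤ a) := by
  change c ∈ ((Finset.range (a + 1)).image (fun i => (i, 0)) ∪
    (Finset.range (a + 1)).image (fun j => (0, j)) : Finset (ℕ × ℕ)) ↔ _
  rw [Finset.mem_union, Finset.mem_image, Finset.mem_image]
  simp only [Finset.mem_range]
  constructor
  · rintro (⟨i, hi, rfl⟩ | ⟨i, hi, rfl⟩)
    · left
      exact ⟨rfl, by change i ≤ a; omega⟩
    · right
      exact ⟨rfl, by change i ≤ a; omega⟩
  · rintro (⟨h1, h2⟩ | ⟨h1, h2⟩)
    · left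
      exact ⟨c.1, by omega, Prod.ext rfl h1.symm⟩
    · right
      exact ⟨c.2, by omega, Prod.ext h1.symm rfl⟩

theorem card_hookD (a : ℕ) : (hookD a).card ≤ 2 * a + 1 := by
  have h : (hookD a).cells ⊆ (Finset.range (a + 1)).image (fun i => (i, 0)) ∪
      (Finset.range a).image (fun j => (0, j + 1)) := by
    intro c hc
    rw [YoungDiagram.mem_cells, mem_hookD] at hc
    rw [Finset.mem_union, Finset.mem_image, Finset.mem_image]
    simp only [Finset.mem_range]
    rcases hc with ⟨h1, h2⟩ | ⟨h1, h2⟩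
    · left
      exact ⟨c.1, by omega, Prod.ext rfl h1.symm⟩
    · rcases Nat.eq_zero_or_pos c.2 with h3 | h3
      · left
        exact ⟨c.1, by omega, Prod.ext rfl h3.symm⟩
      · right
        exact ⟨c.2 - 1, by omega, Prod.ext h1.symm (by change c.2 - 1 + 1 = c.2; omega)⟩
  refine (Finset.card_le_card h).trans ((Finset.card_union_le _ _).trans ?_)
  have h1 := Finset.card_image_le (s := Finset.range (a + 1)) (f := fun i => (i, (0 : ℕ)))
  have h2 := Finset.card_image_le (s := Finset.range a) (f := fun j => ((0 : ℕ), j + 1))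
  rw [Finset.card_range] at h1 h2
  omega

theorem drow_hookD (a : ℕ) : drow (hookD a) ≤ a := by
  unfold drow
  have h : (hookD a).cells.filter (fun c => 0 < c.1) ⊆
      (Finset.range a).image (fun i => (i + 1, (0 : ℕ))) := by
    intro c hc
    rw [Finset.mem_filter, YoungDiagram.mem_cells, mem_hookD] at hc
    rw [Finset.mem_image]
    simp only [Finset.mem_range]
    rcases hc with ⟨⟨h1, h2⟩ | ⟨h1, h2⟩, h3⟩
    · exact ⟨c.1 - 1, by omega, Prod.ext (by change c.1 - 1 + 1 = c.1; omega) h1.symm⟩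
    · omega
  have h2 := Finset.card_image_le (s := Finset.range a) (f := fun i => (i + 1, (0 : ℕ)))
  rw [Finset.card_range] at h2
  exact (Finset.card_le_card h).trans h2

theorem drow_ge {ν : YoungDiagram} {a : ℕ} (h : (a, 0) ∈ ν) : a ≤ drow ν := by
  unfold drow
  have h1 : (Finset.range a).image (fun i => (i + 1, (0 : ℕ))) ⊆
      ν.cells.filter (fun c => 0 < c.1) := by
    intro c hc
    rw [Finset.mem_image] at hc
    obtain ⟨i, hi, rfl⟩ := hc
    rw [Finset.mem_range] at hi
    rw [Finset.mem_filter]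
    exact ⟨ν.up_left_mem (by omega) le_rfl h, Nat.succ_pos _⟩
  have h2 := Finset.card_le_card h1
  rwa [Finset.card_image_of_injective _ (fun x y hxy => by simpa using hxy),
    Finset.card_range] at h2

theorem hook_le {ν : YoungDiagram} {a : ℕ} (h1 : (a, 0) ∈ ν) (h2 : (0, a) ∈ ν) :
    hookD a ≤ ν := by
  intro c hc
  rw [mem_hookD] at hc
  rcases hc with ⟨h3, h4⟩ | ⟨h3, h4⟩
  · exact ν.up_left_mem (i2 := a) (j2 := 0) h4 (by omega) h1
  · exact ν.up_left_mem (i2 := 0) (j2 := a) (by omega) h4 h2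

/-- **Exponentially many chains** for diagrams with many rows and columns. -/
theorem expo (a : ℕ) : ∀ (m : ℕ) (ν : YoungDiagram), 4 * a + 6 ≤ m →
    ν.card = m * (m + 1) / 2 → (a, 0) ∈ ν → (0, a) ∈ ν → Has (2 ^ a) m ν := by
  induction a with
  | zero =>
    intro m ν _ hν _ _
    exact has_one m ν hν
  | succ a ih =>
    intro m ν hm hν h1 h2
    obtain ⟨k, rfl⟩ := Nat.exists_eq_add_of_le' (show 4 ≤ m by omega)
    have key : ∀ ν : YoungDiagram, ν.card = (k + 4) * (k + 4 + 1) / 2 → (a + 1, 0) ∈ ν →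
        (0, a + 1) ∈ ν → 2 * (k + 4) + 3 + (2 * a + 1) ≤ Saxl.top ν →
        Has (2 ^ (a + 1)) (k + 4) ν := by
      intro ν hν h1 h2 ht
      have g1 : (a, 0) ∈ ν := ν.up_left_mem (by omega) le_rfl h1
      have g2 : (0, a) ∈ ν := ν.up_left_mem le_rfl (by omega) h2
      have g3 := drow_hookD a
      have g4 := drow_ge h1
      obtain ⟨s', τ, τ', σ, hne, t1, t2, s1, s2, s3⟩ := double_gen (k := k) (e := 2 * a + 1)
        (by omega) (card_hookD a) (hook_le g1 g2) hν (by omega) ht
        (fun D hD => cover4 (by omega) D hD)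
      have hσ : σ.card = k * (k + 1) / 2 := (mem_step.mp s1).2.1
      have h3 := ih k σ (by omega) hσ (s3 (by
        rw [mem_hookD]
        exact Or.inl ⟨rfl, le_rfl⟩)) (s3 (by
        rw [mem_hookD]
        exact Or.inr ⟨rfl, le_rfl⟩))
      have h4 := has_double hne t1 t2 s1 s2 h3
      have e : 2 ^ (a + 1) = 2 * 2 ^ a := by ring
      rw [e]
      exact h4
    rcases cover3 (m := k + 4) (e := 2 * a + 1) (by omega) ν hν with ht | hl
    · exact key ν hν h1 h2 ht
    · refine (key ν.transpose (by rw [Saxl.card_transpose]; exact hν) ?_ ?_ ?_).transpose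
      · rw [YoungDiagram.mem_transpose]
        exact h2
      · rw [YoungDiagram.mem_transpose]
        exact h1
      · rw [Saxl.top_transpose]
        exact hl

end Vale.Agent.P197.H528
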