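import Vale.Agent.P197.H528.Low
import Vale.Agent.P197.H528.Comb4

/-!
# P197 with multiplicities: assembly of the clauses (helper528)
-/

set_option linter.all false

namespace Vale.Agent.P197.H528

open Finset Vale.Agent.P197

theorem kron_all {m : ℕ} (hm : 26 ≤ m) {ν : YoungDiagram} (hν : ν.card = m * (m + 1) / 2)
    (h1 : ν.rowLen 0 ≠ m * (m + 1) / 2) (h2 : ν.colLen 0 ≠ m * (m + 1) / 2)
    (s1 : ν.rowLen 0 + 1 = m * (m + 1) / 2 →
      m - 1 ≤ kron (m * (m + 1) / 2) (staircase m) (staircase m) ν)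
    (s2 : ν.colLen 0 + 1 = m * (m + 1) / 2 →
      m - 1 ≤ kron (m * (m + 1) / 2) (staircase m) (staircase m) ν) :
    m - 1 ≤ kron (m * (m + 1) / 2) (staircase m) (staircase m) ν := by
  have h3 := drow_add ν
  have h4 := drow_add ν.transpose
  rw [YoungDiagram.rowLen_transpose, Saxl.card_transpose] at h4
  by_cases g1 : ν.rowLen 0 + 1 = m * (m + 1) / 2
  · exact s1 g1
  by_cases g2 : ν.colLen 0 + 1 = m * (m + 1) / 2
  · exact s2 g2
  rw [← hh_eq hm]
  exact kron_low hν (by omega) (by omega)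

theorem kron_expo {m a : ℕ} {ν : YoungDiagram} (hm : 4 * a + 6 ≤ m)
    (hν : ν.card = m * (m + 1) / 2) (h1 : a < ν.colLen 0) (h2 : a < ν.rowLen 0) :
    2 ^ a ≤ kron (m * (m + 1) / 2) (staircase m) (staircase m) ν :=
  kron_of_has hν (expo a m ν hm hν (YoungDiagram.mem_iff_lt_colLen.mpr h1)
    (YoungDiagram.mem_iff_lt_rowLen.mpr h2))

end Vale.Agent.P197.H528
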