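import Vale.Agent.P197.H528.Tri

/-!
# P197 with multiplicities: combinatorics of ideals of Young diagrams (helper528)
-/

set_option linter.all false

namespace Vale.Agent.P197.H528

open Finset Vale.Agent.P197

/-- Every cell can be raised to a maximal cell of a finite set. -/
theorem exists_max_above (s : Finset (ℕ × ℕ)) {x : ℕ × ℕ} (hx : x ∈ s) :
    ∃ y ∈ s, x ≤ y ∧ ∀ z ∈ s, y ≤ z → z = y := by
  classical
  obtain ⟨y, hy, hmax⟩ := Finset.exists_maximal (s := s.filter (fun z => x ≤ z))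
    ⟨x, Finset.mem_filter.mpr ⟨hx, le_rfl⟩⟩
  rw [Finset.mem_filter] at hy
  refine ⟨y, hy.1, hy.2, fun z hz hyz => ?_⟩
  exact le_antisymm (hmax (Finset.mem_filter.mpr ⟨hz, hy.2.trans hyz⟩) hyz) hyz

theorem exists_min_below (s : Finset (ℕ × ℕ)) {x : ℕ × ℕ} (hx : x ∈ s) :
    ∃ y ∈ s, y ≤ x ∧ ∀ z ∈ s, z ≤ y → z = y := by
  classical
  obtain ⟨y, hy, hmin⟩ := Finset.exists_minimal (s := s.filter (fun z => z ≤ x))
    ⟨x, Finset.mem_filter.mpr ⟨hx, le_rfl⟩⟩
  rw [Finset.mem_filter] at hy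
  refine ⟨y, hy.1, hy.2, fun z hz hyz => ?_⟩
  exact le_antisymm hyz (hmin (Finset.mem_filter.mpr ⟨hz, hyz.trans hy.2⟩) hyz)

/-- **Two ideals.** -/
theorem two_ideals {V τ ν : YoungDiagram} (hV : V ≤ τ) (hτ : τ ≤ ν) {x y : ℕ × ℕ}
    (hx : x ∈ τ) (hxV : x ∉ V) (hy : y ∈ ν) (hyτ : y ∉ τ) (hxy : ¬ x ≤ y) :
    ∃ τ' τ₀ D : YoungDiagram, V ≤ τ₀ ∧ τ₀ ≤ τ ∧ τ₀ ≤ τ' ∧ τ ≤ D ∧ τ' ≤ D ∧ D ≤ ν ∧
      τ₀.card + 1 = τ.card ∧ τ'.card = τ.card ∧ D.card = τ.card + 1 ∧ τ ≠ τ' ∧
      ∀ c ∈ D, ∀ c' ∈ D, c ∉ τ₀ → c ≤ c' → c' = c := by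
  classical
  obtain ⟨x', hx', hxx', hmax⟩ := exists_max_above τ.cells (x := x) hx
  obtain ⟨y', hy', hyy', hmin⟩ := exists_min_below (ν.cells \ τ.cells) (x := y)
    (Finset.mem_sdiff.mpr ⟨hy, hyτ⟩)
  rw [Finset.mem_sdiff] at hy'
  have hx'y' : ¬ x' ≤ y' := fun h => hxy (hxx'.trans (h.trans hyy'))
  have hx'V : x' ∉ V := fun h => hxV (V.isLowerSet hxx' h)
  have hne : y' ≠ x' := fun h => hx'y' (h ▸ le_rfl)
  have hlow : ∀ z, z ≤ y' → z ≠ y' → z ∈ τ.cells := by
    intro z hz hzy
    by_contra hcon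
    have hzν : z ∈ ν.cells := ν.isLowerSet hz hy'.1
    exact hzy (hmin z (Finset.mem_sdiff.mpr ⟨hzν, hcon⟩) hz)
  have h0 : IsLowerSet ((τ.cells.erase x' : Finset (ℕ × ℕ)) : Set (ℕ × ℕ)) := by
    intro a b hba ha
    rw [Finset.mem_coe, Finset.mem_erase] at ha ⊢
    refine ⟨?_, τ.isLowerSet hba ha.2⟩
    rintro rfl
    exact ha.1 (hmax a ha.2 hba)
  have h1 : IsLowerSet ((insert y' (τ.cells.erase x') : Finset (ℕ × ℕ)) : Set (ℕ × ℕ)) := by
    intro a b hba ha
    rw [Finset.mem_coe, Finset.mem_insert] at ha ⊢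
    rcases ha with rfl | ha
    · by_cases hb : b = a
      · exact Or.inl hb
      · right
        rw [Finset.mem_erase]
        refine ⟨?_, hlow b hba hb⟩
        rintro rfl
        exact hx'y' hba
    · exact Or.inr (h0 hba ha)
  have h2 : IsLowerSet ((insert y' τ.cells : Finset (ℕ × ℕ)) : Set (ℕ × ℕ)) := by
    intro a b hba ha
    rw [Finset.mem_coe, Finset.mem_insert] at ha ⊢
    rcases ha with rfl | ha
    · by_cases hb : b = a
      · exact Or.inl hb
      · exact Or.inr (hlow b hba hb)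
    · exact Or.inr (τ.isLowerSet hba ha)
  refine ⟨⟨_, h1⟩, ⟨_, h0⟩, ⟨_, h2⟩, ?_, ?_, ?_, ?_, ?_, ?_, ?_, ?_, ?_, ?_, ?_⟩
  · intro c hc
    change c ∈ τ.cells.erase x'
    rw [Finset.mem_erase]
    refine ⟨?_, hV hc⟩
    rintro rfl
    exact hx'V hc
  · intro c hc
    exact (Finset.mem_erase.mp hc).2
  · intro c hc
    exact Finset.mem_insert_of_mem hc
  · intro c hc
    exact Finset.mem_insert_of_mem hc
  · intro c hc
    change c ∈ insert y' (τ.cells.erase x') at hc
    change c ∈ insert y' τ.cells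
    rw [Finset.mem_insert] at hc ⊢
    rcases hc with hc | hc
    · exact Or.inl hc
    · exact Or.inr (Finset.mem_erase.mp hc).2
  · intro c hc
    change c ∈ insert y' τ.cells at hc
    rw [Finset.mem_insert] at hc
    rcases hc with rfl | hc
    · exact hy'.1
    · exact hτ hc
  · exact Finset.card_erase_add_one hx'
  · change (insert y' (τ.cells.erase x')).card = _
    rw [Finset.card_insert_of_notMem, Finset.card_erase_add_one hx']
    intro h
    exact hy'.2 (Finset.mem_erase.mp h).2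
  · change (insert y' τ.cells).card = _
    rw [Finset.card_insert_of_notMem hy'.2]
  · intro h
    have h3 : y' ∈ τ.cells := by
      rw [h]
      exact Finset.mem_insert_self _ _
    exact hy'.2 h3
  · intro c hc c' hc' hc0 hcc
    change c ∈ insert y' τ.cells at hc
    change c' ∈ insert y' τ.cells at hc'
    change ¬ c ∈ τ.cells.erase x' at hc0
    rw [Finset.mem_insert] at hc hc'
    rw [Finset.mem_erase] at hc0
    rcases hc with rfl | hc
    · rcases hc' with h | h
      · exact h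
      · exact absurd (τ.isLowerSet hcc h) hy'.2
    · have hcx : c = x' := by
        by_contra hcon
        exact hc0 ⟨hcon, hc⟩
      subst hcx
      rcases hc' with h | h
      · rw [h] at hcc
        exact absurd hcc hx'y'
      · exact hmax c' h hcc

/-- The shifted diagram lies in the common part. -/
theorem shift_le {D τ₀ : YoungDiagram}
    (h : ∀ c ∈ D, ∀ c' ∈ D, c ∉ τ₀ → c ≤ c' → c' = c) :
    Saxl.shiftUp 4 D ≤ τ₀ := by
  intro c hc
  by_contra hcon
  have h1 : (c.1 + 4, c.2) ∈ D := Saxl.mem_shiftUp.mp hc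
  have h2 : c ∈ D := Saxl.shiftUp_le 4 D hc
  have h3 := h c h2 (c.1 + 4, c.2) h1 hcon ⟨Nat.le_add_right _ _, le_rfl⟩
  have h4 := congrArg Prod.fst h3
  simp at h4

theorem shift_mono {τ D : YoungDiagram} (h : τ ≤ D) :
    Saxl.shiftUp 4 τ ≤ Saxl.shiftUp 4 D := by
  intro c hc
  exact Saxl.mem_shiftUp.mpr (h (Saxl.mem_shiftUp.mp hc))

/-- The number of cells outside the first row. -/
def drow (ν : YoungDiagram) : ℕ := (ν.cells.filter (fun c => 0 < c.1)).card

/-- **No ordinal sum.** -/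
theorem exists_incomp {e : ℕ} {E ν τ : YoungDiagram} (hE : E.card ≤ e)
    (hν : drow E < drow ν) (h1 : E ⊔ Saxl.shiftUp 4 ν ≤ τ) (h2 : τ ≤ ν)
    (h3 : (E ⊔ Saxl.shiftUp 4 ν).card + 4 ≤ τ.card) (h4 : τ.card + e + 2 ≤ ν.card) :
    ∃ x ∈ τ, x ∉ E ⊔ Saxl.shiftUp 4 ν ∧ ∃ y ∈ ν, y ∉ τ ∧ ¬ x ≤ y := by
  classical
  by_contra hcon
  push Not at hcon
  set V := E ⊔ Saxl.shiftUp 4 ν with hV
  have hVmem : ∀ c, c ∈ V ↔ c ∈ E ∨ (c.1 + 4, c.2) ∈ ν := by
    intro c
    rw [hV, YoungDiagram.mem_sup, Saxl.mem_shiftUp]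
  -- cardinalities
  have hc1 : 4 ≤ (τ.cells \ V.cells).card := by
    rw [Finset.card_sdiff_of_subset h1]
    change 4 ≤ τ.card - V.card
    omega
  have hc2 : e + 2 ≤ (ν.cells \ τ.cells).card := by
    rw [Finset.card_sdiff_of_subset h2]
    change e + 2 ≤ ν.card - τ.card
    omega
  -- the first column meeting the complement of `V`
  have hex : ∃ j, ∃ i, (i, j) ∈ ν ∧ (i, j) ∉ V := by
    obtain ⟨c, hc⟩ := Finset.card_pos.mp (show 0 < (τ.cells \ V.cells).card by omega)
    rw [Finset.mem_sdiff] at hc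
    exact ⟨c.2, c.1, h2 hc.1, hc.2⟩
  set j0 := Nat.find hex with hj0
  obtain ⟨i1, hi1, hi1V⟩ := Nat.find_spec hex
  rw [← hj0] at hi1 hi1V
  have hj0min : ∀ c, c ∈ ν → c ∉ V → j0 ≤ c.2 := by
    intro c hc hcV
    exact Nat.find_min' hex ⟨c.1, hc, hcV⟩
  set L := ν.colLen j0 with hL
  have hi1L : i1 < L := YoungDiagram.mem_iff_lt_colLen.mp hi1
  have hz : (L - 1, j0) ∈ ν := YoungDiagram.mem_iff_lt_colLen.mpr (by omega)
  have hzV : (L - 1, j0) ∉ V := by
    intro h
    exact hi1V (V.up_left_mem (show i1 ≤ L - 1 by omega) le_rfl h)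
  by_cases hzτ : (L - 1, j0) ∈ τ
  · -- all the cells outside `τ` are in the row `L - 1`
    have hrow : ∀ y, y ∈ ν → y ∉ τ → y.1 = L - 1 ∧ j0 ≤ y.2 := by
      intro y hy hyτ
      have h5 := hcon _ hzτ hzV y hy hyτ
      have h6 : L - 1 ≤ y.1 := h5.1
      have h7 : j0 ≤ y.2 := h5.2
      have h8 : y.1 < ν.colLen y.2 := YoungDiagram.mem_iff_lt_colLen.mp hy
      have h9 := ν.colLen_anti j0 y.2 h7
      exact ⟨by omega, h7⟩
    rcases Nat.eq_zero_or_pos (L - 1) with hL0 | hLpos
    · -- `L = 1`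
      have hL1 : L = 1 := by omega
      have hrow0 : ∀ c, c ∈ ν → c ∉ V → c.1 = 0 := by
        intro c hc hcV
        have h5 := hj0min c hc hcV
        have h6 : c.1 < ν.colLen c.2 := YoungDiagram.mem_iff_lt_colLen.mp hc
        have h7 := ν.colLen_anti j0 c.2 h5
        omega
      have hsub : ν.cells.filter (fun c => 0 < c.1) ⊆ E.cells.filter (fun c => 0 < c.1) := by
        intro c hc
        rw [Finset.mem_filter] at hc ⊢
        refine ⟨?_, hc.2⟩
        have h6 : c.1 < ν.colLen c.2 := YoungDiagram.mem_iff_lt_colLen.mp hc.1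
        have h7 : (ν.colLen c.2 - 1, c.2) ∈ ν :=
          YoungDiagram.mem_iff_lt_colLen.mpr (by omega)
        have h8 : (ν.colLen c.2 - 1, c.2) ∈ V := by
          by_contra hcon2
          have := hrow0 _ h7 hcon2
          simp only at this
          have := hc.2
          omega
        rw [hVmem] at h8
        rcases h8 with h8 | h8
        · exact E.up_left_mem (show c.1 ≤ ν.colLen c.2 - 1 by omega) le_rfl h8
        · have h9 := YoungDiagram.mem_iff_lt_colLen.mp h8
          simp only at h9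
          omega
      have := Finset.card_le_card hsub
      unfold drow at hν
      omega
    · -- `L ≥ 2`
      obtain ⟨y0, hy0⟩ := Finset.card_pos.mp (show 0 < (ν.cells \ τ.cells).card by omega)
      obtain ⟨y1, hy1, hy1min⟩ := Finset.exists_min_image (ν.cells \ τ.cells) (fun c => c.2)
        ⟨y0, hy0⟩
      have hmaps : ∀ y ∈ (ν.cells \ τ.cells).erase y1, (L - 2, y.2) ∈ E.cells := by
        intro y hy
        rw [Finset.mem_erase] at hy
        have hyd := hy.2
        rw [Finset.mem_sdiff] at hyd hy1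
        obtain ⟨hyr, hyc⟩ := hrow y hyd.1 hyd.2
        obtain ⟨hy1r, hy1c⟩ := hrow y1 hy1.1 hy1.2
        have hle := hy1min y hy.2
        have hlt : y1.2 < y.2 := by
          rcases Nat.lt_or_ge y1.2 y.2 with h | h
          · exact h
          · exact absurd (Prod.ext (by omega) (by omega)) hy.1
        have h5 : (L - 2, y.2) ∈ ν := by
          refine ν.up_left_mem (i2 := y.1) (j2 := y.2) (by omega) le_rfl hyd.1
        have h6 : (L - 2, y.2) ∈ τ := by
          by_contra hcon2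
          have := (hrow _ h5 hcon2).1
          simp only at this
          omega
        have h7 : (L - 2, y.2) ∈ V := by
          by_contra hcon2
          have := (hcon _ h6 hcon2 y1 hy1.1 hy1.2).2
          simp only at this
          omega
        rw [hVmem] at h7
        rcases h7 with h7 | h7
        · exact h7
        · have h8 := YoungDiagram.mem_iff_lt_colLen.mp h7
          have h9 := ν.colLen_anti j0 y.2 hyc
          simp only at h8
          omega
      have hcard : ((ν.cells \ τ.cells).erase y1).card ≤ E.cells.card := by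
        refine Finset.card_le_card_of_injOn (fun y => (L - 2, y.2)) hmaps ?_
        intro a ha b hb hab
        rw [Finset.mem_coe, Finset.mem_erase, Finset.mem_sdiff] at ha hb
        obtain ⟨har, -⟩ := hrow a ha.2.1 ha.2.2
        obtain ⟨hbr, -⟩ := hrow b hb.2.1 hb.2.2
        simp only [Prod.mk.injEq, true_and] at hab
        exact Prod.ext (by omega) hab
      rw [Finset.card_erase_of_mem hy1] at hcard
      have : E.cells.card ≤ e := hE
      omega
  · -- all the cells of `τ \ V` are in the column `j0`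
    have hcol : ∀ c ∈ τ.cells \ V.cells, c.2 = j0 ∧ L ≤ c.1 + 4 ∧ c.1 < L - 1 := by
      intro c hc
      rw [Finset.mem_sdiff] at hc
      have h5 := hcon c hc.1 hc.2 _ hz hzτ
      have h6 : c.1 ≤ L - 1 := h5.1
      have h7 : c.2 ≤ j0 := h5.2
      have h8 := hj0min c (h2 hc.1) hc.2
      have h9 : c.2 = j0 := le_antisymm h7 h8
      refine ⟨h9, ?_, ?_⟩
      · by_contra hlt
        apply hc.2
        change c ∈ V
        rw [hVmem]
        right
        rw [YoungDiagram.mem_iff_lt_colLen, h9]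
        omega
      · rcases Nat.lt_or_ge c.1 (L - 1) with h | h
        · exact h
        · exfalso
          apply hzτ
          have : c = (L - 1, j0) := Prod.ext (by omega) h9
          rw [← this]
          exact hc.1
    have hcard : (τ.cells \ V.cells).card ≤ (Finset.Ico (L - 4) (L - 1)).card := by
      refine Finset.card_le_card_of_injOn (fun c => c.1) ?_ ?_
      · intro c hc
        obtain ⟨-, h5, h6⟩ := hcol c hc
        rw [Finset.mem_coe, Finset.mem_Ico]
        change L - 4 ≤ c.1 ∧ c.1 < L - 1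
        omega
      · intro a ha b hb hab
        exact Prod.ext hab ((hcol a ha).1.trans (hcol b hb).1.symm)
    rw [Nat.card_Ico] at hcard
    omega

end Vale.Agent.P197.H528
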