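import Vale.Agent.P197.H528.Comb1

/-!
# P197 with multiplicities: the covering lemma with slack and the doubling step (helper528)
-/

set_option linter.all false

namespace Vale.Agent.P197.H528

open Finset Vale.Agent.P197

/-- The covering lemma with slack. -/
theorem cover (ν : YoungDiagram) (y : ℕ) (ht : Saxl.top ν ≤ y) (hl : Saxl.left ν ≤ y) :
    (∃ z, y = z + 16 ∧ 16 * ν.card ≤ 16 * (2 * z + 16) + z * z) ∨ ν.card + 7 ≤ 2 * y ∨
      ν.card ≤ y := by
  classical
  -- `S` : cells outside the first four rows and columns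
  set T := ν.cells.filter (fun c => c.1 < 4) with hT
  set L := ν.cells.filter (fun c => c.2 < 4) with hL
  set S := ν.cells.filter (fun c => 4 ≤ c.1 ∧ 4 ≤ c.2) with hS
  have hTc : T.card = Saxl.top ν := rfl
  have hLc : L.card = Saxl.left ν := rfl
  have hcover : ν.card ≤ (T ∪ L).card + S.card := by
    have hsub : ν.cells ⊆ (T ∪ L) ∪ S := by
      intro c hc
      simp only [hT, hL, hS, Finset.mem_union, Finset.mem_filter]
      rcases lt_or_ge c.1 4 with h1 | h1
      · exact Or.inl (Or.inl ⟨hc, h1⟩)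
      · rcases lt_or_ge c.2 4 with h2 | h2
        · exact Or.inl (Or.inr ⟨hc, h2⟩)
        · exact Or.inr ⟨hc, h1, h2⟩
    exact (Finset.card_le_card hsub).trans (Finset.card_union_le _ _)
  have hunion : (T ∪ L).card + (T ∩ L).card = T.card + L.card :=
    Finset.card_union_add_card_inter T L
  by_cases h44 : (4, 4) ∈ ν
  · left
    have hr : 5 ≤ ν.rowLen 4 := YoungDiagram.mem_iff_lt_rowLen.mp h44
    have hq : 5 ≤ ν.colLen 4 := YoungDiagram.mem_iff_lt_colLen.mp h44
    have hTL : 16 ≤ (T ∩ L).card := by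
      have hsub : (Finset.range 4 ×ˢ Finset.range 4) ⊆ T ∩ L := by
        intro c hc
        simp only [Finset.mem_product, Finset.mem_range] at hc
        simp only [hT, hL, Finset.mem_inter, Finset.mem_filter]
        have : c ∈ ν.cells := ν.up_left_mem (i2 := 4) (j2 := 4) (by omega) (by omega) h44
        exact ⟨⟨this, hc.1⟩, ⟨this, hc.2⟩⟩
      have := Finset.card_le_card hsub
      simpa only [ge_iff_le, card_product, card_range, Nat.reduceMul] using this
    have hrT : 4 * ν.rowLen 4 ≤ T.card := by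
      have hsub : (Finset.range 4 ×ˢ Finset.range (ν.rowLen 4)) ⊆ T := by
        intro c hc
        simp only [Finset.mem_product, Finset.mem_range] at hc
        simp only [hT, Finset.mem_filter]
        refine ⟨?_, hc.1⟩
        have : c ∈ ν := YoungDiagram.mem_iff_lt_rowLen.mpr
          (lt_of_lt_of_le hc.2 (ν.rowLen_anti c.1 4 (by omega)))
        exact this
      have := Finset.card_le_card hsub
      simpa only [ge_iff_le, card_product, card_range] using this
    have hqL : 4 * ν.colLen 4 ≤ L.card := by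
      have hsub : (Finset.range (ν.colLen 4) ×ˢ Finset.range 4) ⊆ L := by
        intro c hc
        simp only [Finset.mem_product, Finset.mem_range] at hc
        simp only [hL, Finset.mem_filter]
        refine ⟨?_, hc.2⟩
        have : c ∈ ν := YoungDiagram.mem_iff_lt_colLen.mpr
          (lt_of_lt_of_le hc.1 (ν.colLen_anti c.2 4 (by omega)))
        exact this
      have := Finset.card_le_card hsub
      simp only [Finset.card_product, Finset.card_range] at this
      (clear * - this; omega)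
    have hSc : S.card ≤ (ν.colLen 4 - 4) * (ν.rowLen 4 - 4) := by
      have hsub : S ⊆ (Finset.Ico 4 (ν.colLen 4)) ×ˢ (Finset.Ico 4 (ν.rowLen 4)) := by
        intro c hc
        simp only [hS, Finset.mem_filter] at hc
        have hcν : c ∈ ν := hc.1
        have h1 : c.2 < ν.rowLen c.1 := YoungDiagram.mem_iff_lt_rowLen.mp hcν
        have h2 : c.1 < ν.colLen c.2 := YoungDiagram.mem_iff_lt_colLen.mp hcν
        have h3 := ν.rowLen_anti 4 c.1 hc.2.1
        have h4 := ν.colLen_anti 4 c.2 hc.2.2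
        simp only [Finset.mem_product, Finset.mem_Ico]
        omega
      have := Finset.card_le_card hsub
      simpa only [ge_iff_le, card_product, Nat.card_Ico] using this
    obtain ⟨z, hz⟩ := Nat.exists_eq_add_of_le (show 16 ≤ y by omega)
    refine ⟨z, by omega, ?_⟩
    have a1 : 4 * (ν.colLen 4 - 4) ≤ z := by omega
    have a2 : 4 * (ν.rowLen 4 - 4) ≤ z := by omega
    have a3 := Nat.mul_le_mul a1 a2
    have a4 : 4 * (ν.colLen 4 - 4) * (4 * (ν.rowLen 4 - 4)) =
        16 * ((ν.colLen 4 - 4) * (ν.rowLen 4 - 4)) := by ring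
    rw [a4] at a3
    omega
  · right
    have hS0 : S = ∅ := by
      rw [Finset.eq_empty_iff_forall_notMem]
      intro c hc
      simp only [hS, Finset.mem_filter] at hc
      exact h44 (ν.up_left_mem (i2 := c.1) (j2 := c.2) hc.2.1 hc.2.2 hc.1)
    rw [hS0, Finset.card_empty, add_zero] at hcover
    by_cases h04 : (0, 4) ∈ ν
    · by_cases h40 : (4, 0) ∈ ν
      · left
        have hTL : 7 ≤ (T ∩ L).card := by
          have hsub : ((Finset.range 4).image (fun j => ((0 : ℕ), j)) ∪
              (Finset.range 3).image (fun i => (i + 1, (0 : ℕ)))) ⊆ T ∩ L := by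
            intro c hc
            simp only [Finset.mem_union, Finset.mem_image, Finset.mem_range] at hc
            simp only [hT, hL, Finset.mem_inter, Finset.mem_filter]
            rcases hc with ⟨j, hj, rfl⟩ | ⟨i, hi, rfl⟩
            · have : ((0 : ℕ), j) ∈ ν.cells :=
                ν.up_left_mem (i2 := 0) (j2 := 4) le_rfl (by omega) h04
              exact ⟨⟨this, by norm_num⟩, ⟨this, hj⟩⟩
            · have : (i + 1, (0 : ℕ)) ∈ ν.cells :=
                ν.up_left_mem (i2 := 4) (j2 := 0) (by omega) le_rfl h40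
              exact ⟨⟨this, by change i + 1 < 4; omega⟩, ⟨this, by norm_num⟩⟩
          have h7 : ((Finset.range 4).image (fun j => ((0 : ℕ), j)) ∪
              (Finset.range 3).image (fun i => (i + 1, (0 : ℕ)))).card = 7 := by decide
          rw [← h7]
          exact Finset.card_le_card hsub
        omega
      · right
        have : ν.card = Saxl.top ν := by
          unfold Saxl.top
          change ν.cells.card = _
          congr 1
          ext c
          simp only [Finset.mem_filter, iff_self_and]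
          intro hc
          by_contra hcon
          push Not at hcon
          exact h40 (ν.up_left_mem (i2 := c.1) (j2 := c.2) hcon (Nat.zero_le _) hc)
        omega
    · right
      have : ν.card = Saxl.left ν := by
        unfold Saxl.left
        change ν.cells.card = _
        congr 1
        ext c
        simp only [Finset.mem_filter, iff_self_and]
        intro hc
        by_contra hcon
        push Not at hcon
        exact h04 (ν.up_left_mem (i2 := c.1) (j2 := c.2) (Nat.zero_le _) hcon hc)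
      omega

theorem two_tri (k : ℕ) : 2 * (k * (k + 1) / 2) = k * (k + 1) :=
  Nat.mul_div_cancel' (even_iff_two_dvd.mp (Nat.even_mul_succ_self k))

theorem tri_succ2 (k : ℕ) : (k + 2) * (k + 2 + 1) / 2 = k * (k + 1) / 2 + (2 * k + 3) := by
  have h1 := two_tri k
  have h2 := two_tri (k + 2)
  have h3 : (k + 2) * (k + 2 + 1) = k * (k + 1) + 2 * (2 * k + 3) := by ring
  omega

theorem cover1 {m : ℕ} (hm : 10 ≤ m) (ν : YoungDiagram) (hν : ν.card = m * (m + 1) / 2) :
    2 * m + 8 ≤ Saxl.top ν ∨ 2 * m + 8 ≤ Saxl.left ν := by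
  by_contra hcon
  push Not at hcon
  have h2 := two_tri m
  rw [← hν] at h2
  rcases cover ν (2 * m + 7) (by omega) (by omega) with ⟨z, hz, h⟩ | h | h
  · obtain ⟨t, ht⟩ := Nat.exists_eq_add_of_le hm
    subst ht
    have hz' : z = 2 * t + 11 := by omega
    subst hz'
    nlinarith only [h2, h]
  · nlinarith only [h2, h, hm]
  · nlinarith only [h2, h, hm]

theorem cover2 {k : ℕ} (hk : 6 ≤ k) (D : YoungDiagram)
    (hD : D.card = (k + 2) * (k + 2 + 1) / 2 + 1) :
    2 * k + 9 ≤ Saxl.top D ∨ 2 * k + 9 ≤ Saxl.left D := by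
  by_contra hcon
  push Not at hcon
  have h2 := two_tri (k + 2)
  rcases cover D (2 * k + 8) (by omega) (by omega) with ⟨z, hz, h⟩ | h | h
  · obtain ⟨t, ht⟩ := Nat.exists_eq_add_of_le hk
    subst ht
    have hz' : z = 2 * t + 4 := by omega
    subst hz'
    have h3 : 2 * D.card = (6 + t + 2) * (6 + t + 2 + 1) + 2 := by omega
    nlinarith only [h3, h]
  · have h3 : 2 * D.card = (k + 2) * (k + 2 + 1) + 2 := by omega
    nlinarith only [h3, h, hk]
  · have h3 : 2 * D.card = (k + 2) * (k + 2 + 1) + 2 := by omega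
    nlinarith only [h3, h, hk]

theorem card_shift (ν : YoungDiagram) : (Saxl.shiftUp 4 ν).card + Saxl.top ν = ν.card := by
  rw [Saxl.card_shiftUp]
  have := Finset.card_filter_add_card_filter_not (s := ν.cells) (fun c => c.1 < 4)
  have h' : ν.card = #ν.cells := rfl
  unfold Saxl.top
  rw [h', ← this, add_comm]
  congr 2
  ext c
  simp only [mem_filter, YoungDiagram.mem_cells, not_lt]

theorem card_sup_le (E F : YoungDiagram) : (E ⊔ F).card ≤ E.card + F.card := by
  have h : (E ⊔ F).cells = E.cells ∪ F.cells := YoungDiagram.cells_sup E F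
  change (E ⊔ F).cells.card ≤ _
  rw [h]
  exact Finset.card_union_le _ _

/-- **Doubling step**, general form. -/
theorem double_gen {k e : ℕ} (he : e ≤ 2 * k + 5) {E ν : YoungDiagram} (hE : E.card ≤ e)
    (hEν : E ≤ ν) (hν : ν.card = (k + 4) * (k + 4 + 1) / 2)
    (hd : drow E < drow ν) (ht : 2 * (k + 4) + 3 + e ≤ Saxl.top ν)
    (hcov : ∀ D : YoungDiagram, D.card = (k + 2) * (k + 2 + 1) / 2 + 1 →
      2 * k + 4 + e ≤ Saxl.top D ∨ 2 * k + 4 + e ≤ Saxl.left D) :
    ∃ (s' : Bool) (τ τ' σ : YoungDiagram), τ ≠ τ' ∧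
      τ ∈ step true ((k + 2) * (k + 2 + 1) / 2) ν ∧
      τ' ∈ step true ((k + 2) * (k + 2 + 1) / 2) ν ∧
      σ ∈ step s' (k * (k + 1) / 2) τ ∧ σ ∈ step s' (k * (k + 1) / 2) τ' ∧ E ≤ σ := by
  have hs1 := card_shift ν
  have h1 := tri_succ2 k
  have h2 := tri_succ2 (k + 2)
  have e1 : k + 4 = k + 2 + 2 := by omega
  rw [e1, h2] at hν
  have hVc := card_sup_le E (Saxl.shiftUp 4 ν)
  have hVν : E ⊔ Saxl.shiftUp 4 ν ≤ ν := sup_le hEν (Saxl.shiftUp_le 4 ν)
  obtain ⟨τ, hVτ, hτν, hτc⟩ := Saxl.exists_between (E ⊔ Saxl.shiftUp 4 ν) ν hVν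
    ((k + 2) * (k + 2 + 1) / 2) (by omega) (by omega)
  obtain ⟨x, hx, hxV, y, hy, hyτ, hxy⟩ := exists_incomp hE hd hVτ hτν (by omega) (by omega)
  obtain ⟨τ', τ₀, D, g1, g2, g3, g4, g5, g6, g7, g8, g9, g10, g11⟩ :=
    two_ideals hVτ hτν hx hxV hy hyτ hxy
  have hUτ : Saxl.shiftUp 4 ν ≤ τ := le_sup_right.trans hVτ
  have hUτ' : Saxl.shiftUp 4 ν ≤ τ' := (le_sup_right.trans g1).trans g3
  have hE0 : E ≤ τ₀ := le_sup_left.trans g1
  have m1 : τ ∈ step true ((k + 2) * (k + 2 + 1) / 2) ν := by
    rw [mem_step]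
    exact ⟨hτν, hτc, by simpa using fun c => Saxl.colLen_le_of_shiftUp_le hUτ c⟩
  have m2 : τ' ∈ step true ((k + 2) * (k + 2 + 1) / 2) ν := by
    rw [mem_step]
    exact ⟨g5.trans g6, g8.trans hτc, by
      simpa using fun c => Saxl.colLen_le_of_shiftUp_le hUτ' c⟩
  rcases hcov D (by omega) with hD | hD
  · -- columns
    have hs2 := card_shift D
    have hWc := card_sup_le E (Saxl.shiftUp 4 D)
    have hW0 : E ⊔ Saxl.shiftUp 4 D ≤ τ₀ := sup_le hE0 (shift_le g11)
    obtain ⟨σ, s1, s2, s3⟩ := Saxl.exists_between (E ⊔ Saxl.shiftUp 4 D) τ₀ hW0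
      (k * (k + 1) / 2) (by omega) (by omega)
    have hUσ : Saxl.shiftUp 4 D ≤ σ := le_sup_right.trans s1
    refine ⟨true, τ, τ', σ, g10, m1, m2, ?_, ?_, le_sup_left.trans s1⟩
    · rw [mem_step]
      exact ⟨s2.trans g2, s3, by
        simpa using fun c => Saxl.colLen_le_of_shiftUp_le ((shift_mono g4).trans hUσ) c⟩
    · rw [mem_step]
      exact ⟨s2.trans g3, s3, by
        simpa using fun c => Saxl.colLen_le_of_shiftUp_le ((shift_mono g5).trans hUσ) c⟩
  · -- rows
    have hs2 := card_shift D.transpose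
    rw [Saxl.top_transpose, Saxl.card_transpose] at hs2
    have hWc := card_sup_le E.transpose (Saxl.shiftUp 4 D.transpose)
    rw [Saxl.card_transpose] at hWc
    have g11' : ∀ c ∈ D.transpose, ∀ c' ∈ D.transpose, c ∉ τ₀.transpose → c ≤ c' → c' = c := by
      intro c hc c' hc' hc0 hcc
      rw [YoungDiagram.mem_transpose] at hc hc' hc0
      have := g11 c.swap hc c'.swap hc' hc0 ⟨hcc.2, hcc.1⟩
      exact Prod.swap_injective this
    have hW0 : E.transpose ⊔ Saxl.shiftUp 4 D.transpose ≤ τ₀.transpose :=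
      sup_le (YoungDiagram.transpose_mono hE0) (shift_le g11')
    obtain ⟨σ, s1, s2, s3⟩ := Saxl.exists_between (E.transpose ⊔ Saxl.shiftUp 4 D.transpose)
      τ₀.transpose hW0 (k * (k + 1) / 2) (by omega) (by rw [Saxl.card_transpose]; omega)
    have hUσ : Saxl.shiftUp 4 D.transpose ≤ σ := le_sup_right.trans s1
    have s2' : σ.transpose ≤ τ₀ := by
      have := YoungDiagram.transpose_mono s2
      rwa [YoungDiagram.transpose_transpose] at this
    have s4 : E ≤ σ.transpose := YoungDiagram.le_of_transpose_le (le_sup_left.trans s1)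
    have hcol : ∀ ξ : YoungDiagram, ξ ≤ D → ∀ r, ξ.rowLen r ≤ σ.transpose.rowLen r + 4 := by
      intro ξ hξ r
      have := Saxl.colLen_le_of_shiftUp_le
        ((shift_mono (YoungDiagram.transpose_mono hξ)).trans hUσ) r
      rw [YoungDiagram.colLen_transpose] at this
      rwa [YoungDiagram.rowLen_transpose]
    refine ⟨false, τ, τ', σ.transpose, g10, m1, m2, ?_, ?_, s4⟩
    · rw [mem_step]
      exact ⟨s2'.trans g2, by rw [Saxl.card_transpose]; exact s3, by simpa using hcol τ g4⟩
    · rw [mem_step]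
      exact ⟨s2'.trans g3, by rw [Saxl.card_transpose]; exact s3, by simpa using hcol τ' g5⟩

/-- **Doubling step**, first type of step from `ν`. -/
theorem double_top {k : ℕ} (hk : 6 ≤ k) {E ν : YoungDiagram} (hE : E.card ≤ 5)
    (hE2 : drow E ≤ 2) (hEν : E ≤ ν) (hν : ν.card = (k + 4) * (k + 4 + 1) / 2)
    (hd : 3 ≤ drow ν) (ht : 2 * (k + 4) + 8 ≤ Saxl.top ν) :
    ∃ (s' : Bool) (τ τ' σ : YoungDiagram), τ ≠ τ' ∧
      τ ∈ step true ((k + 2) * (k + 2 + 1) / 2) ν ∧
      τ' ∈ step true ((k + 2) * (k + 2 + 1) / 2) ν ∧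
      σ ∈ step s' (k * (k + 1) / 2) τ ∧ σ ∈ step s' (k * (k + 1) / 2) τ' ∧ E ≤ σ := by
  refine double_gen (e := 5) (by omega) hE hEν hν (by omega) (by omega) ?_
  intro D hD
  have := cover2 hk D hD
  omega

/-- Covering with larger slack. -/
theorem cover3 {m e : ℕ} (hm : 2 * e + 8 ≤ m) (ν : YoungDiagram)
    (hν : ν.card = m * (m + 1) / 2) :
    2 * m + 3 + e ≤ Saxl.top ν ∨ 2 * m + 3 + e ≤ Saxl.left ν := by
  by_contra hcon
  push Not at hcon
  have h2 := two_tri m
  rw [← hν] at h2
  obtain ⟨t, ht⟩ := Nat.exists_eq_add_of_le hm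
  subst ht
  rcases cover ν (2 * (2 * e + 8 + t) + 2 + e) (by omega) (by omega) with ⟨z, hz, h⟩ | h | h
  · have hz' : z = 5 * e + 2 * t + 2 := by omega
    subst hz'
    nlinarith only [h2, h, sq_nonneg e, sq_nonneg t, mul_nonneg (Nat.zero_le e) (Nat.zero_le t)]
  · nlinarith only [h2, h, sq_nonneg e, sq_nonneg t, mul_nonneg (Nat.zero_le e) (Nat.zero_le t)]
  · nlinarith only [h2, h, sq_nonneg e, sq_nonneg t, mul_nonneg (Nat.zero_le e) (Nat.zero_le t)]

theorem cover4 {k e : ℕ} (hk : 2 * e + 4 ≤ k) (D : YoungDiagram)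
    (hD : D.card = (k + 2) * (k + 2 + 1) / 2 + 1) :
    2 * k + 4 + e ≤ Saxl.top D ∨ 2 * k + 4 + e ≤ Saxl.left D := by
  by_contra hcon
  push Not at hcon
  have h2 := two_tri (k + 2)
  obtain ⟨t, ht⟩ := Nat.exists_eq_add_of_le hk
  subst ht
  have h3 : 2 * D.card = (2 * e + 4 + t + 2) * (2 * e + 4 + t + 2 + 1) + 2 := by omega
  rcases cover D (2 * (2 * e + 4 + t) + 3 + e) (by omega) (by omega) with ⟨z, hz, h⟩ | h | h
  · obtain ⟨w, hw⟩ : ∃ w, w = z + 16 := ⟨_, rfl⟩
    have hw' : w = 5 * e + 2 * t + 11 := by omega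
    have h5 : 16 * D.card ≤ w * w := by
      rw [hw]
      nlinarith only [h]
    rw [hw'] at h5
    nlinarith only [h3, h5, sq_nonneg e, sq_nonneg t, mul_nonneg (Nat.zero_le e) (Nat.zero_le t)]
  · nlinarith only [h3, h, sq_nonneg e, sq_nonneg t, mul_nonneg (Nat.zero_le e) (Nat.zero_le t)]
  · nlinarith only [h3, h, sq_nonneg e, sq_nonneg t, mul_nonneg (Nat.zero_le e) (Nat.zero_le t)]

end Vale.Agent.P197.H528
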