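import Vale.Agent.P197.H528.Comb2

/-!
# P197 with multiplicities: lower bounds for the number of chains (helper528)
-/

set_option linter.all false

namespace Vale.Agent.P197.H528

open Finset Vale.Agent.P197

/-! ### Elementary facts on `drow` -/

theorem drow_mono {μ ν : YoungDiagram} (h : μ ≤ ν) : drow μ ≤ drow ν := by
  unfold drow
  refine Finset.card_le_card ?_
  intro c hc
  rw [Finset.mem_filter] at hc ⊢
  exact ⟨h hc.1, hc.2⟩

theorem drow_add (ν : YoungDiagram) : drow ν + ν.rowLen 0 = ν.card := by
  have := Finset.card_filter_add_card_filter_not (s := ν.cells) (fun c => 0 < c.1)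
  have h' : ν.card = #ν.cells := rfl
  unfold drow
  rw [h', ← this, YoungDiagram.rowLen_eq_card]
  congr 2
  ext c
  simp only [YoungDiagram.row, mem_filter, YoungDiagram.mem_cells, not_lt, Nat.le_zero]

/-- The two by two square. -/
def E22 : YoungDiagram where
  cells := Finset.range 2 ×ˢ Finset.range 2
  isLowerSet := by
    intro a b hba ha
    rw [Finset.mem_coe, Finset.mem_product, Finset.mem_range, Finset.mem_range] at ha ⊢
    have h1 : b.1 ≤ a.1 := hba.1
    have h2 : b.2 ≤ a.2 := hba.2
    omega

/-- The hook `(3, 1, 1)`. -/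
def E311 : YoungDiagram where
  cells := (Finset.range 3 ×ˢ Finset.range 3).filter fun c => c.1 = 0 ∨ c.2 = 0
  isLowerSet := by
    intro a b hba ha
    rw [Finset.mem_coe, Finset.mem_filter, Finset.mem_product, Finset.mem_range,
      Finset.mem_range] at ha ⊢
    have h1 : b.1 ≤ a.1 := hba.1
    have h2 : b.2 ≤ a.2 := hba.2
    omega

theorem exists_E {ν : YoungDiagram} (h1 : 2 ≤ drow ν) (h2 : 2 ≤ drow ν.transpose) :
    ∃ E : YoungDiagram, E.card ≤ 5 ∧ drow E ≤ 2 ∧ E ≤ ν ∧ 2 ≤ drow E ∧
      2 ≤ drow E.transpose := by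
  classical
  by_cases h : (1, 1) ∈ ν
  · refine ⟨E22, by decide, by decide, ?_, by decide, by decide⟩
    intro c hc
    change c ∈ Finset.range 2 ×ˢ Finset.range 2 at hc
    rw [Finset.mem_product, Finset.mem_range, Finset.mem_range] at hc
    exact ν.up_left_mem (i2 := 1) (j2 := 1) (by omega) (by omega) h
  · have key : ∀ μ : YoungDiagram, (1, 1) ∉ μ → 2 ≤ drow μ → (2, 0) ∈ μ := by
      intro μ hμ hd
      obtain ⟨a, ha, b, hb, hab⟩ := Finset.one_lt_card.mp (show 1 < (μ.cells.filter
        (fun c => 0 < c.1)).card from hd)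
      rw [Finset.mem_filter] at ha hb
      have h0 : ∀ c : ℕ × ℕ, c ∈ μ.cells ∧ 0 < c.1 → c.2 = 0 := by
        intro c hc
        by_contra hne
        exact hμ (μ.up_left_mem (i2 := c.1) (j2 := c.2) (by omega) (by omega) hc.1)
      have ha0 := h0 a ha
      have hb0 := h0 b hb
      have hne : a.1 ≠ b.1 := fun h => hab (Prod.ext h (by omega))
      rcases Nat.lt_or_ge a.1 b.1 with hlt | hge
      · exact μ.up_left_mem (i2 := b.1) (j2 := b.2) (by omega) (by omega) hb.1
      · exact μ.up_left_mem (i2 := a.1) (j2 := a.2) (by omega) (by omega) ha.1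
    have h20 := key ν h h1
    have h02 := key ν.transpose (by simpa using h) h2
    rw [YoungDiagram.mem_transpose] at h02
    refine ⟨E311, by decide, by decide, ?_, by decide, by decide⟩
    intro c hc
    change c ∈ (Finset.range 3 ×ˢ Finset.range 3).filter (fun c => c.1 = 0 ∨ c.2 = 0) at hc
    rw [Finset.mem_filter, Finset.mem_product, Finset.mem_range, Finset.mem_range] at hc
    rcases hc.2 with h0 | h0
    · exact ν.up_left_mem (i2 := 0) (j2 := 2) (by omega) (by omega) h02
    · exact ν.up_left_mem (i2 := 2) (j2 := 0) (by omega) (by omega) h20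

/-! ### Elementary facts on chains -/

theorem step_transpose {s : Bool} {k : ℕ} {ν τ : YoungDiagram} (h : τ ∈ step s k ν) :
    τ.transpose ∈ step (!s) k ν.transpose := by
  rw [mem_step] at h ⊢
  obtain ⟨h1, h2, h3⟩ := h
  refine ⟨YoungDiagram.transpose_mono h1, by rw [Saxl.card_transpose]; exact h2, ?_⟩
  cases s with
  | true =>
    simp only [if_true, Bool.not_true, Bool.false_eq_true, if_false] at h3 ⊢
    intro r
    rw [YoungDiagram.rowLen_transpose, YoungDiagram.rowLen_transpose]
    exact h3 r
  | false =>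
    simp only [if_true, Bool.not_false, Bool.false_eq_true, if_false] at h3 ⊢
    intro r
    rw [YoungDiagram.colLen_transpose, YoungDiagram.colLen_transpose]
    exact h3 r

theorem chains_transpose (ε : ℕ → Bool) : ∀ (m : ℕ) (ν : YoungDiagram),
    chains (fun k => !ε k) m ν.transpose = chains ε m ν
  | 0, _ => rfl
  | 1, _ => rfl
  | m + 2, ν => by
    rw [chains, chains]
    refine Finset.sum_bij' (fun τ _ => τ.transpose) (fun τ _ => τ.transpose) ?_ ?_ ?_ ?_ ?_
    · intro τ hτ
      have := step_transpose hτ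
      rwa [Bool.not_not, YoungDiagram.transpose_transpose] at this
    · intro τ hτ
      exact step_transpose hτ
    · intro τ _
      exact YoungDiagram.transpose_transpose τ
    · intro τ _
      exact YoungDiagram.transpose_transpose τ
    · intro τ _
      have := chains_transpose ε m τ.transpose
      rwa [YoungDiagram.transpose_transpose] at this

theorem chains_congr {ε ε' : ℕ → Bool} : ∀ (m : ℕ) (ν : YoungDiagram),
    (∀ k ≤ m, ε k = ε' k) → chains ε m ν = chains ε' m ν
  | 0, _, _ => rfl
  | 1, _, _ => rfl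
  | m + 2, ν, h => by
    rw [chains, chains, h (m + 2) le_rfl]
    exact Finset.sum_congr rfl (fun τ _ => chains_congr m τ (fun k hk => h k (by omega)))

/-- Some sign pattern gives at least `a` chains. -/
def Has (a m : ℕ) (ν : YoungDiagram) : Prop := ∃ ε : ℕ → Bool, a ≤ chains ε m ν

theorem Has.transpose {a m : ℕ} {ν : YoungDiagram} (h : Has a m ν.transpose) : Has a m ν := by
  obtain ⟨ε, hε⟩ := h
  refine ⟨fun k => !ε k, ?_⟩
  have := chains_transpose ε m ν.transpose
  rw [YoungDiagram.transpose_transpose] at this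
  rw [this]
  exact hε

theorem Has.mono {a a' m : ℕ} {ν : YoungDiagram} (h : Has a m ν) (ha : a' ≤ a) :
    Has a' m ν := by
  obtain ⟨ε, hε⟩ := h
  exact ⟨ε, ha.trans hε⟩

theorem chains_single {ε : ℕ → Bool} {m : ℕ} {ν τ : YoungDiagram}
    (h : τ ∈ step (ε (m + 2)) (m * (m + 1) / 2) ν) : chains ε m τ ≤ chains ε (m + 2) ν := by
  rw [chains]
  exact Finset.single_le_sum (f := fun τ => chains ε m τ) (fun _ _ => Nat.zero_le _) h

theorem chains_pair {ε : ℕ → Bool} {m : ℕ} {ν τ τ' : YoungDiagram} (hne : τ ≠ τ')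
    (h : τ ∈ step (ε (m + 2)) (m * (m + 1) / 2) ν)
    (h' : τ' ∈ step (ε (m + 2)) (m * (m + 1) / 2) ν) :
    chains ε m τ + chains ε m τ' ≤ chains ε (m + 2) ν := by
  classical
  rw [chains, ← Finset.sum_pair (f := fun τ => chains ε m τ) hne]
  refine Finset.sum_le_sum_of_subset ?_
  intro c hc
  rw [Finset.mem_insert, Finset.mem_singleton] at hc
  rcases hc with rfl | rfl
  · exact h
  · exact h'

theorem has_one (m : ℕ) : ∀ ν : YoungDiagram, ν.card = m * (m + 1) / 2 → Has 1 m ν := by
  induction m using Nat.strong_induction_on with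
  | _ m ih =>
    intro ν hν
    match m, ih, hν with
    | 0, _, _ => exact ⟨fun _ => true, le_rfl⟩
    | 1, _, _ => exact ⟨fun _ => true, le_rfl⟩
    | k + 2, ih, hν =>
      have key : ∀ ν ν2 : YoungDiagram, ν2 ≤ ν → ν2.card = (k + 2 - 2) * (k + 2 - 1) / 2 →
          (∀ j, ν.colLen j ≤ ν2.colLen j + 4) → Has 1 (k + 2) ν := by
        intro ν ν2 h1 h2 h3
        have h2' : ν2.card = k * (k + 1) / 2 := by
          rw [h2]
          simp only [Nat.add_sub_cancel]
          rfl
        obtain ⟨ε, hε⟩ := ih k (by omega) ν2 h2'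
        refine ⟨fun i => if i = k + 2 then true else ε i, ?_⟩
        have h4 : ν2 ∈ step ((fun i => if i = k + 2 then true else ε i) (k + 2))
            (k * (k + 1) / 2) ν := by
          rw [mem_step]
          exact ⟨h1, h2', by simpa using h3⟩
        refine le_trans ?_ (chains_single h4)
        rw [chains_congr (ε' := ε) k ν2 (fun i hi => by
          have : i ≠ k + 2 := by omega
          simp [this])]
        exact hε
      rcases Saxl.exists_sub (k + 2) (by omega) ν hν with ⟨ν2, h1, h2, h3⟩ | ⟨ν2, h1, h2, h3⟩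
      · exact key ν ν2 h1 h2 h3
      · exact (key ν.transpose ν2 h1 h2 h3).transpose

/-! ### Diagrams with at most two cells outside the first row -/

theorem near_step {ν τ : YoungDiagram} (hν : drow ν ≤ 2) (h : τ ≤ ν) {k : ℕ}
    (hk : τ.card = k) : τ ∈ step true k ν := by
  classical
  rw [mem_step]
  refine ⟨h, hk, ?_⟩
  simp only [if_true]
  intro c
  have h3 : ν.colLen c ≤ 3 := by
    by_contra hcon
    have h4 : (3, c) ∈ ν := YoungDiagram.mem_iff_lt_colLen.mpr (by omega)
    have h5 : ({(1, 0), (2, 0), (3, 0)} : Finset (ℕ × ℕ)) ⊆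
        ν.cells.filter (fun c => 0 < c.1) := by
      intro d hd
      simp only [Finset.mem_insert, Finset.mem_singleton] at hd
      rw [Finset.mem_filter]
      rcases hd with rfl | rfl | rfl
      · exact ⟨ν.up_left_mem (by omega) (by omega) h4, by decide⟩
      · exact ⟨ν.up_left_mem (by omega) (by omega) h4, by decide⟩
      · exact ⟨ν.up_left_mem (by omega) (by omega) h4, by decide⟩
    have h6 := Finset.card_le_card h5
    have h7 : ({(1, 0), (2, 0), (3, 0)} : Finset (ℕ × ℕ)).card = 3 := by decide
    unfold drow at hν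
    omega
  omega

/-- The one-row diagram. -/
def rowD (a : ℕ) : YoungDiagram where
  cells := {0} ×ˢ Finset.range a
  isLowerSet := by
    intro x y hyx hx
    rw [Finset.mem_coe, Finset.mem_product, Finset.mem_singleton, Finset.mem_range] at hx ⊢
    have h1 : y.1 ≤ x.1 := hyx.1
    have h2 : y.2 ≤ x.2 := hyx.2
    omega

theorem mem_rowD {a : ℕ} {c : ℕ × ℕ} : c ∈ rowD a ↔ c.1 = 0 ∧ c.2 < a := by
  change c ∈ ({0} ×ˢ Finset.range a : Finset (ℕ × ℕ)) ↔ _
  rw [Finset.mem_product, Finset.mem_singleton, Finset.mem_range]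

theorem card_rowD (a : ℕ) : (rowD a).card = a := by
  change (({0} ×ˢ Finset.range a : Finset (ℕ × ℕ))).card = a
  rw [Finset.card_product, Finset.card_singleton, Finset.card_range, one_mul]

/-- The first two columns. -/
def cut2 (ν : YoungDiagram) : YoungDiagram where
  cells := ν.cells.filter fun c => c.2 < 2
  isLowerSet := by
    intro x y hyx hx
    rw [Finset.mem_coe, Finset.mem_filter] at hx ⊢
    have h2 : y.2 ≤ x.2 := hyx.2
    exact ⟨ν.isLowerSet hyx hx.1, by omega⟩

theorem exists_near {ν : YoungDiagram} (h : drow ν ≤ 2) {d K : ℕ} (hd : d ≤ drow ν)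
    (hK1 : d + 2 ≤ K) (hK2 : K ≤ ν.rowLen 0 + d) :
    ∃ τ : YoungDiagram, τ ≤ ν ∧ τ.card = K ∧ drow τ = d := by
  classical
  have hadd := drow_add ν
  have h1 : rowD (ν.rowLen 0) ≤ ν := by
    intro c hc
    obtain ⟨h2, h3⟩ := mem_rowD.mp hc
    have : (0, c.2) ∈ ν := YoungDiagram.mem_iff_lt_rowLen.mpr h3
    have e : c = (0, c.2) := Prod.ext h2 rfl
    rw [e]
    exact this
  obtain ⟨ν', g1, g2, g3⟩ := Saxl.exists_between (rowD (ν.rowLen 0)) ν h1 (ν.rowLen 0 + d)
    (by rw [card_rowD]; omega) (by omega)
  have hadd' := drow_add ν'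
  have hrow : ν'.rowLen 0 = ν.rowLen 0 := by
    apply le_antisymm
    · by_contra hcon
      have h4 : (0, ν.rowLen 0) ∈ ν' := YoungDiagram.mem_iff_lt_rowLen.mpr (by omega)
      have h5 : (0, ν.rowLen 0) ∈ ν := g2 h4
      exact lt_irrefl _ (YoungDiagram.mem_iff_lt_rowLen.mp h5)
    · by_contra hcon
      have h4 : (0, ν'.rowLen 0) ∈ rowD (ν.rowLen 0) := mem_rowD.mpr ⟨rfl, by
        change ν'.rowLen 0 < _
        omega⟩
      have h5 : (0, ν'.rowLen 0) ∈ ν' := g1 h4
      exact lt_irrefl _ (YoungDiagram.mem_iff_lt_rowLen.mp h5)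
  have hd' : drow ν' = d := by omega
  have hle : cut2 ν' ≤ ν' := by
    intro c hc
    exact (Finset.mem_filter.mp hc).1
  have hcut : drow (cut2 ν') = d := by
    rw [← hd']
    unfold drow
    congr 1
    ext c
    rw [Finset.mem_filter, Finset.mem_filter]
    constructor
    · rintro ⟨h4, h5⟩
      exact ⟨(Finset.mem_filter.mp h4).1, h5⟩
    · rintro ⟨h4, h5⟩
      refine ⟨Finset.mem_filter.mpr ⟨h4, ?_⟩, h5⟩
      by_contra hcon
      have h6 : ({(1, 0), (1, 1), (1, 2)} : Finset (ℕ × ℕ)) ⊆
          ν'.cells.filter (fun c => 0 < c.1) := by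
        intro e he
        simp only [Finset.mem_insert, Finset.mem_singleton] at he
        rw [Finset.mem_filter]
        rcases he with rfl | rfl | rfl
        · exact ⟨ν'.up_left_mem (i2 := c.1) (j2 := c.2) (by omega) (by omega) h4, by decide⟩
        · exact ⟨ν'.up_left_mem (i2 := c.1) (j2 := c.2) (by omega) (by omega) h4, by decide⟩
        · exact ⟨ν'.up_left_mem (i2 := c.1) (j2 := c.2) (by omega) (by omega) h4, by decide⟩
      have h7 := Finset.card_le_card h6
      have h8 : ({(1, 0), (1, 1), (1, 2)} : Finset (ℕ × ℕ)).card = 3 := by decide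
      unfold drow at hd' hd h
      omega
  have hcutc : (cut2 ν').card ≤ d + 2 := by
    rw [← drow_add (cut2 ν'), hcut]
    have : (cut2 ν').rowLen 0 ≤ 2 := by
      by_contra hcon
      have h4 : (0, 2) ∈ cut2 ν' := YoungDiagram.mem_iff_lt_rowLen.mpr (by omega)
      have h5 := (Finset.mem_filter.mp h4).2
      simp at h5
    omega
  obtain ⟨τ, t1, t2, t3⟩ := Saxl.exists_between (cut2 ν') ν' hle K (by omega) (by omega)
  refine ⟨τ, t2.trans g2, t3, ?_⟩
  have h4 := drow_mono t1
  have h5 := drow_mono t2
  omega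

theorem near_zero (m : ℕ) : ∀ ν : YoungDiagram, ν.card = m * (m + 1) / 2 → drow ν ≤ 2 →
    1 ≤ chains (fun _ => true) m ν := by
  induction m using Nat.strong_induction_on with
  | _ m ih =>
    intro ν hν hd
    match m, ih, hν with
    | 0, _, _ => exact le_rfl
    | 1, _, _ => exact le_rfl
    | k + 2, ih, hν =>
      have h1 := tri_succ2 k
      obtain ⟨τ, -, t2, t3⟩ := Saxl.exists_between (rowD 0) ν (by
        intro c hc
        have := (mem_rowD.mp hc).2
        omega) (k * (k + 1) / 2) (by rw [card_rowD]; omega) (by omega)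
      have h4 : τ ∈ step ((fun _ => true) (k + 2)) (k * (k + 1) / 2) ν := near_step hd t2 t3
      exact (ih k (by omega) τ t3 ((drow_mono t2).trans hd)).trans (chains_single h4)

theorem tri_ge {m : ℕ} (h : 2 ≤ m) : 3 ≤ m * (m + 1) / 2 := by
  have h1 := two_tri m
  have h2 : 2 * 3 ≤ m * (m + 1) := Nat.mul_le_mul h (by omega)
  omega

theorem tri_ge' {m : ℕ} (h : 3 ≤ m) : 6 ≤ m * (m + 1) / 2 := by
  have h1 := two_tri m
  have h2 : 3 * 4 ≤ m * (m + 1) := Nat.mul_le_mul h (by omega)
  omega

theorem near_one (m : ℕ) : ∀ ν : YoungDiagram, ν.card = m * (m + 1) / 2 → drow ν = 1 →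
    m / 2 ≤ chains (fun _ => true) m ν := by
  induction m using Nat.strong_induction_on with
  | _ m ih =>
    intro ν hν hd
    match m, ih, hν with
    | 0, _, _ => exact Nat.zero_le _
    | 1, _, _ => exact Nat.zero_le _
    | k + 2, ih, hν =>
      have h1 := tri_succ2 k
      have hadd := drow_add ν
      rcases Nat.lt_or_ge k 2 with hk | hk
      · have := near_zero (k + 2) ν hν (by omega)
        omega
      have hK := tri_ge hk
      obtain ⟨τ, a1, a2, a3⟩ := exists_near (ν := ν) (d := 0) (K := k * (k + 1) / 2)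
        (by omega) (by omega) (by omega) (by omega)
      obtain ⟨τ', b1, b2, b3⟩ := exists_near (ν := ν) (d := 1) (K := k * (k + 1) / 2)
        (by omega) (by omega) (by omega) (by omega)
      have hne : τ ≠ τ' := by
        rintro rfl
        omega
      have h2 := near_zero k τ a2 (by omega)
      have h3 := ih k (by omega) τ' b2 b3
      have h4 := chains_pair (ε := fun _ => true) (m := k) hne
        (near_step (by omega) a1 a2) (near_step (by omega) b1 b2)
      omega

theorem near_two (m : ℕ) : ∀ ν : YoungDiagram, ν.card = m * (m + 1) / 2 → drow ν = 2 →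
    m * m ≤ 8 * chains (fun _ => true) m ν + 16 := by
  classical
  induction m using Nat.strong_induction_on with
  | _ m ih =>
    intro ν hν hd
    match m, ih, hν with
    | 0, _, _ => omega
    | 1, _, _ => omega
    | k + 2, ih, hν =>
      have h1 := tri_succ2 k
      have hadd := drow_add ν
      rcases Nat.lt_or_ge k 3 with hk | hk
      · have h16 : (k + 2) * (k + 2) ≤ 4 * 4 := Nat.mul_le_mul (by omega) (by omega)
        omega
      have hK := tri_ge' hk
      obtain ⟨τ, a1, a2, a3⟩ := exists_near (ν := ν) (d := 0) (K := k * (k + 1) / 2)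
        (by omega) (by omega) (by omega) (by omega)
      obtain ⟨τ', b1, b2, b3⟩ := exists_near (ν := ν) (d := 1) (K := k * (k + 1) / 2)
        (by omega) (by omega) (by omega) (by omega)
      obtain ⟨τ'', c1, c2, c3⟩ := exists_near (ν := ν) (d := 2) (K := k * (k + 1) / 2)
        (by omega) (by omega) (by omega) (by omega)
      have hne : τ ≠ τ' := by
        rintro rfl
        omega
      have hne' : τ ≠ τ'' := by
        rintro rfl
        omega
      have hne'' : τ' ≠ τ'' := by
        rintro rfl
        omega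
      have h2 := near_zero k τ a2 (by omega)
      have h3 := near_one k τ' b2 b3
      have h4 := ih k (by omega) τ'' c2 c3
      have h5 : chains (fun _ => true) k τ + (chains (fun _ => true) k τ' +
          chains (fun _ => true) k τ'') ≤ chains (fun _ => true) (k + 2) ν := by
        have e : ∑ ξ ∈ ({τ, τ', τ''} : Finset YoungDiagram), chains (fun _ => true) k ξ =
            chains (fun _ => true) k τ + (chains (fun _ => true) k τ' +
          chains (fun _ => true) k τ'') := by
          rw [Finset.sum_insert, Finset.sum_pair hne'']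
          rw [Finset.mem_insert, Finset.mem_singleton]
          push Not
          exact ⟨hne, hne'⟩
        rw [← e, chains]
        refine Finset.sum_le_sum_of_subset ?_
        intro c hc
        rw [Finset.mem_insert, Finset.mem_insert, Finset.mem_singleton] at hc
        rcases hc with rfl | rfl | rfl
        · exact near_step (by omega) a1 a2
        · exact near_step (by omega) b1 b2
        · exact near_step (by omega) c1 c2
      have h6 : (k + 2) * (k + 2) = k * k + 4 * k + 4 := by ring
      omega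

/-! ### The lower bound -/

/-- The lower bound. -/
def hh (m : ℕ) : ℕ := min (m - 1) (2 ^ ((m - 6) / 4))

theorem hh_step {k : ℕ} (hk : 6 ≤ k) : hh (k + 4) ≤ 2 * hh k := by
  unfold hh
  have e1 : (k + 4 - 6) / 4 = (k - 6) / 4 + 1 := by omega
  rw [e1, pow_succ]
  rcases le_total (k - 1) (2 ^ ((k - 6) / 4)) with h | h
  · rw [min_eq_left h]
    have := min_le_left (k + 4 - 1) (2 ^ ((k - 6) / 4) * 2)
    omega
  · rw [min_eq_right h]
    have := min_le_right (k + 4 - 1) (2 ^ ((k - 6) / 4) * 2)
    omega

theorem low (m : ℕ) : ∀ ν : YoungDiagram, ν.card = m * (m + 1) / 2 → 2 ≤ drow ν →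
    2 ≤ drow ν.transpose → Has (hh m) m ν := by
  induction m using Nat.strong_induction_on with
  | _ m ih =>
    rcases Nat.lt_or_ge m 10 with hm | hm
    · intro ν hν _ _
      refine (has_one m ν hν).mono ?_
      unfold hh
      have e : (m - 6) / 4 = 0 := by omega
      rw [e]
      exact min_le_right _ _
    obtain ⟨k, rfl⟩ := Nat.exists_eq_add_of_le' (show 4 ≤ m by omega)
    have hk : 6 ≤ k := by omega
    -- the case of two cells outside the first row
    have h2 : ∀ ν : YoungDiagram, ν.card = (k + 4) * (k + 4 + 1) / 2 → drow ν = 2 →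
        Has (hh (k + 4)) (k + 4) ν := by
      intro ν hν hd
      refine ⟨fun _ => true, (min_le_left _ _).trans ?_⟩
      have h3 := near_two (k + 4) ν hν hd
      have h4 : 8 * (k + 4) + 8 ≤ (k + 4) * (k + 4) := by nlinarith
      omega
    -- the doubling case
    have h3 : ∀ ν : YoungDiagram, ν.card = (k + 4) * (k + 4 + 1) / 2 → 3 ≤ drow ν →
        2 ≤ drow ν.transpose → 2 * (k + 4) + 8 ≤ Saxl.top ν → Has (hh (k + 4)) (k + 4) ν := by
      intro ν hν hd hd' ht
      obtain ⟨E, e1, e2, e3, e4, e5⟩ := exists_E (by omega) hd'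
      obtain ⟨s', τ, τ', σ, hne, t1, t2, s1, s2, s3⟩ := double_top hk e1 e2 e3 hν hd ht
      have hσ : σ.card = k * (k + 1) / 2 := (mem_step.mp s1).2.1
      obtain ⟨ε, hε⟩ := ih k (by omega) σ hσ (e4.trans (drow_mono s3))
        (e5.trans (drow_mono (YoungDiagram.transpose_mono s3)))
      let ε' : ℕ → Bool := fun i => if i = k + 4 then true else if i = k + 2 then s' else ε i
      have a1 : ε' (k + 2 + 2) = true := by simp [ε']
      have a2 : ε' (k + 2) = s' := by simp [ε']
      have a3 : chains ε' k σ = chains ε k σ := chains_congr k σ (fun i hi => by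
        have b1 : i ≠ k + 4 := by omega
        have b2 : i ≠ k + 2 := by omega
        simp [ε', b1, b2])
      have a4 : chains ε' k σ ≤ chains ε' (k + 2) τ := chains_single (by rw [a2]; exact s1)
      have a5 : chains ε' k σ ≤ chains ε' (k + 2) τ' := chains_single (by rw [a2]; exact s2)
      have a6 : chains ε' (k + 2) τ + chains ε' (k + 2) τ' ≤ chains ε' (k + 2 + 2) ν :=
        chains_pair hne (by rw [a1]; exact t1) (by rw [a1]; exact t2)
      refine ⟨ε', (hh_step hk).trans ?_⟩
      have e6 : k + 2 + 2 = k + 4 := by omega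
      rw [e6] at a6
      omega
    intro ν hν hd hd'
    have hν' : ν.transpose.card = (k + 4) * (k + 4 + 1) / 2 := by
      rw [Saxl.card_transpose]
      exact hν
    have htt : ν.transpose.transpose = ν := YoungDiagram.transpose_transpose ν
    rcases Nat.lt_or_ge (drow ν) 3 with hd3 | hd3
    · exact h2 ν hν (by omega)
    rcases Nat.lt_or_ge (drow ν.transpose) 3 with hd3' | hd3'
    · exact (h2 ν.transpose hν' (by omega)).transpose
    rcases cover1 hm ν hν with ht | hl
    · exact h3 ν hν hd3 hd' ht
    · refine (h3 ν.transpose hν' hd3' (by rw [htt]; exact hd) ?_).transpose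
      rw [Saxl.top_transpose]
      exact hl

theorem hh_eq {m : ℕ} (hm : 26 ≤ m) : hh m = m - 1 := by
  unfold hh
  apply min_eq_left
  have key : ∀ k : ℕ, 4 * (k + 5) + 8 ≤ 2 ^ (k + 5) := by
    intro k
    induction k with
    | zero => norm_num
    | succ k ih =>
      have : 2 ^ (k + 1 + 5) = 2 * 2 ^ (k + 5) := by ring
      rw [this]
      omega
  obtain ⟨t, ht⟩ := Nat.exists_eq_add_of_le' (show 5 ≤ (m - 6) / 4 by omega)
  have := key t
  rw [ht]
  omega

end Vale.Agent.P197.H528
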