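import Vale.Agent.P197.Defs

/-!
# P197 with multiplicities: chains of Young diagrams (helper528)

* `step s k ν`: the Young diagrams `τ ≤ ν` with `k` cells such that all columns (`s = true`),
  respectively all rows (`s = false`), of the skew shape `ν / τ` have at most four cells.
* `chains ε m ν`: the number of chains `ν = ν₀ ⊃ ν₁ ⊃ ν₂ ⊃ ...` with `|ν_k| = N_(m - 2 k)`, where
  `N_m = m (m + 1) / 2`, such that `ν_(k+1) ∈ step (ε (m - 2 k)) N_(m - 2 k - 2) ν_k`.
-/

namespace Vale.Agent.P197

/-- The diagrams contained in `ν` are finite in number. -/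
theorem finite_below (ν : YoungDiagram) : {τ : YoungDiagram | τ ≤ ν}.Finite := by
  classical
  refine Set.Finite.of_injOn (f := YoungDiagram.cells) (t := (ν.cells.powerset : Set _)) ?_ ?_
    (Finset.finite_toSet _)
  · intro τ hτ
    simp only [Finset.coe_powerset, Set.mem_preimage, Set.mem_powerset_iff, Finset.coe_subset]
    exact hτ
  · intro τ _ τ' _ h
    exact YoungDiagram.ext h

open Classical in
/-- The diagrams `τ ≤ ν` with `k` cells such that the columns (`s = true`), respectively the rows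
(`s = false`), of `ν / τ` have at most four cells. -/
noncomputable def step (s : Bool) (k : ℕ) (ν : YoungDiagram) : Finset YoungDiagram :=
  (finite_below ν).toFinset.filter fun τ => τ.card = k ∧
    if s then ∀ c, ν.colLen c ≤ τ.colLen c + 4 else ∀ r, ν.rowLen r ≤ τ.rowLen r + 4

/-- The number of chains `ν = ν₀ ⊃ ν₁ ⊃ ...` of type `ε`, for a diagram `ν` with `m (m + 1) / 2`
cells; `ν_(k+1)` has `(m - 2 k - 2) (m - 2 k - 1) / 2` cells. -/
noncomputable def chains (ε : ℕ → Bool) : ℕ → YoungDiagram → ℕ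
  | 0, _ => 1
  | 1, _ => 1
  | m + 2, ν => ∑ τ ∈ step (ε (m + 2)) (m * (m + 1) / 2) ν, chains ε m τ

theorem mem_step {s : Bool} {k : ℕ} {ν τ : YoungDiagram} :
    τ ∈ step s k ν ↔ τ ≤ ν ∧ τ.card = k ∧
      if s then ∀ c, ν.colLen c ≤ τ.colLen c + 4 else ∀ r, ν.rowLen r ≤ τ.rowLen r + 4 := by
  classical
  unfold step
  simp

end Vale.Agent.P197
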