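import Vale.Agent.P197.H528.Rank

/-!
# P197 with multiplicities: the rank is a lower bound for the Kronecker coefficient (helper528)
-/

set_option linter.all false

namespace Vale.Agent.P197.H528

open Equiv Finset Vale.Agent.P197
open scoped TensorProduct

noncomputable section

section General

variable {n : ℕ} {U : Type*} [AddCommGroup U] [Module ℂ U]

/-- The vector obtained by `C⁻ R⁺`. -/
def CR (σ : Representation ℂ (Perm (Fin n)) U) (c r : Fin n → ℕ) : U →ₗ[ℂ] U :=
  ∑ π ∈ stab c, ((Perm.sign π : ℤ) : ℂ) • (σ π ∘ₗ ∑ g ∈ stab r, σ g)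

theorem CR_apply (σ : Representation ℂ (Perm (Fin n)) U) (c r : Fin n → ℕ) (u : U) :
    CR σ c r u = ∑ π ∈ stab c, ((Perm.sign π : ℤ) : ℂ) • σ π (∑ g ∈ stab r, σ g u) := by
  unfold CR
  simp [LinearMap.sum_apply]

/-- Every vector in the image of `C⁻ R⁺` is the value at the polytabloid of an intertwiner. -/
theorem exists_inter (σ : Representation ℂ (Perm (Fin n)) U) {ν : YoungDiagram}
    (t : Fin n ≃ ν.cells) (u : U) :
    ∃ f : Representation.IntertwiningMap (specht n ν) σ,
      f ⟨_, polyt_mem t⟩ = CR σ (fun x => (t x).1.2) (fun x => (t x).1.1) u := by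
  let r : Fin n → ℕ := fun x => (t x).1.1
  let L : spechtSub n ν →ₗ[ℂ] U := (wordLin σ r u).comp (spechtSub n ν).subtype
  refine ⟨LinearMap.intertwiningMap_of_isIntertwiningMap (specht n ν) σ L ?_, ?_⟩
  · intro g v
    exact wordLin_equivariant σ r u g v.1
  · rw [CR_apply, ← wordLin_polyt]
    rfl

/-- Evaluation at a vector. -/
def evL {V : Type*} [AddCommGroup V] [Module ℂ V] (τ : Representation ℂ (Perm (Fin n)) V)
    (σ : Representation ℂ (Perm (Fin n)) U) (v : V) :
    Representation.IntertwiningMap τ σ →ₗ[ℂ] U where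
  toFun f := f v
  map_add' _ _ := rfl
  map_smul' _ _ := rfl

theorem finite_inter {V : Type*} [AddCommGroup V] [Module ℂ V] [Module.Finite ℂ V]
    [Module.Finite ℂ U] (τ : Representation ℂ (Perm (Fin n)) V)
    (σ : Representation ℂ (Perm (Fin n)) U) :
    Module.Finite ℂ (Representation.IntertwiningMap τ σ) :=
  Module.Finite.equiv (Representation.invariantsEquivIntertwiningMap τ σ)

set_option maxSynthPendingDepth 3 in
theorem finrank_CR_le [Module.Finite ℂ U] (σ : Representation ℂ (Perm (Fin n)) U)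
    {ν : YoungDiagram} (t : Fin n ≃ ν.cells) :
    Module.finrank ℂ (LinearMap.range (CR σ (fun x => (t x).1.2) (fun x => (t x).1.1))) ≤
      Module.finrank ℂ (Representation.IntertwiningMap (specht n ν) σ) := by
  have := finite_inter (specht n ν) σ
  have hle : LinearMap.range (CR σ (fun x => (t x).1.2) (fun x => (t x).1.1)) ≤
      LinearMap.range (evL (specht n ν) σ ⟨_, polyt_mem t⟩) := by
    rintro _ ⟨u, rfl⟩
    obtain ⟨f, hf⟩ := exists_inter σ t u
    exact ⟨f, hf⟩
  exact (Submodule.finrank_mono hle).trans (LinearMap.finrank_range_le _)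

end General

/-- The function on `Perm` attached to a vector and a functional. -/
def PhiL {n : ℕ} {U : Type*} [AddCommGroup U] [Module ℂ U]
    (σ : Representation ℂ (Perm (Fin n)) U) (l : U →ₗ[ℂ] ℂ) :
    U →ₗ[ℂ] (Perm (Fin n) → ℂ) :=
  LinearMap.pi fun h => l ∘ₗ σ h

theorem PhiL_apply {n : ℕ} {U : Type*} [AddCommGroup U] [Module ℂ U]
    (σ : Representation ℂ (Perm (Fin n)) U) (l : U →ₗ[ℂ] ℂ) (u : U) (h : Perm (Fin n)) :
    PhiL σ l u h = l (σ h u) := rfl

theorem ba_Phi {n : ℕ} {U : Type*} [AddCommGroup U] [Module ℂ U]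
    (σ : Representation ℂ (Perm (Fin n)) U) (l : U →ₗ[ℂ] ℂ) (rl cl : Fin n → ℕ) (u : U) :
    (bL cl) ((aL rl) (PhiL σ l u)) = PhiL σ l (CR σ cl rl u) := by
  funext h
  rw [PhiL_apply, CR_apply]
  change ∑ π ∈ stab cl, ((Perm.sign π : ℤ) : ℂ) *
    ∑ ρ ∈ stab rl, ((1 : ℤ) : ℂ) * PhiL σ l u (h * π * ρ) = _
  rw [map_sum, map_sum]
  refine Finset.sum_congr rfl (fun π _ => ?_)
  rw [map_smul, map_smul, smul_eq_mul]
  congr 1
  rw [map_sum, map_sum, map_sum]
  refine Finset.sum_congr rfl (fun ρ _ => ?_)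
  rw [PhiL_apply, map_mul, map_mul]
  simp

set_option maxSynthPendingDepth 3 in
/-- **Final step**: the rank of the Young symmetriser of shape `ν` on a good module of functions
is at most the Kronecker coefficient. -/
theorem rk_le_kron {n m : ℕ} {i j : Fin n → ℕ} (hs : IsStair m i j) {b : BF (Fin n)}
    {Q : Submodule ℤ (Perm (Fin n) → ℂ)} (hg : Good m i j b Q) {ν : YoungDiagram}
    (rl cl : Fin n → ℕ) (hl : IsLabel ν.cells rl cl) :
    rk Q rl cl ≤ kron n (staircase m) (staircase m) ν := by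
  classical
  have hbij : Function.Bijective
      (fun x : Fin n => (⟨(rl x, cl x), hl.mem x⟩ : ν.cells)) := by
    constructor
    · intro x y hxy
      have h1 : rl x = rl y ∧ cl x = cl y := by simpa using hxy
      exact hl.inj x y h1.1 h1.2
    · rintro ⟨⟨a, b⟩, hab⟩
      obtain ⟨x, hx1, hx2⟩ := hl.surj (a, b) hab
      refine ⟨x, ?_⟩
      simp only [Subtype.mk.injEq, Prod.mk.injEq]
      exact ⟨hx1, hx2⟩
  let t : Fin n ≃ ν.cells := Equiv.ofBijective _ hbij
  have hr : (fun x => (t x).1.1) = rl := rfl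
  have hc : (fun x => (t x).1.2) = cl := rfl
  let v0 : spechtSub n (staircase m) := ⟨e0 m i j, e0_mem hs⟩
  let v1 : spechtSub n (staircase m) := ⟨e1 m i j, e1_mem hs⟩
  let σ := (specht n (staircase m)).tprod (specht n (staircase m))
  let l := tensorForm (staircase m) (staircase m) b
  have hN : ∀ F ∈ Submodule.span ℤ (Set.range fun k : Perm (Fin n) =>
      Fn b (wordRep (Fin n) k (e0 m i j)) (wordRep (Fin n) k (e1 m i j))),
      F ∈ LinearMap.range (PhiL σ l) := by
    intro F hF
    have hle : Submodule.span ℤ (Set.range fun k : Perm (Fin n) =>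
      Fn b (wordRep (Fin n) k (e0 m i j)) (wordRep (Fin n) k (e1 m i j))) ≤
        (LinearMap.range (PhiL σ l)).restrictScalars ℤ := by
      rw [Submodule.span_le]
      rintro _ ⟨k, rfl⟩
      refine ⟨(specht n (staircase m) k v0) ⊗ₜ[ℂ] (specht n (staircase m) k v1), ?_⟩
      funext h
      rw [PhiL_apply]
      change tensorForm (staircase m) (staircase m) b (((specht n (staircase m)).tprod
        (specht n (staircase m))) h _) = _
      rw [Representation.tprod_apply, TensorProduct.map_tmul, tensorForm_tmul]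
      rfl
    exact hle hF
  have hQ : (Q : Set (Perm (Fin n) → ℂ)) ⊆ LinearMap.range (PhiL σ l) := by
    intro F hF
    obtain ⟨c, hc, hcQ⟩ := odd_smul_mem _ Q hg.fg hg.gen
    have h1 := hN _ (hcQ F hF)
    have hc0 : (c : ℂ) ≠ 0 := by
      intro h0
      have : c = 0 := by exact_mod_cast h0
      subst this
      simp at hc
    have h2 : F = (c : ℂ)⁻¹ • (c • F) := by
      rw [← Int.cast_smul_eq_zsmul ℂ, smul_smul, inv_mul_cancel₀ hc0, one_smul]
    rw [h2]
    exact Submodule.smul_mem _ _ h1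
  have hcs : cs Q ≤ LinearMap.range (PhiL σ l) := Submodule.span_le.mpr hQ
  rw [rk_eq, SO_eq]
  refine (flip_rank (cs Q) rl cl (fun F hF => rsumL_cs Q hg.stable _ _ hF)).trans ?_
  have h3 : (cs Q).map ((bL cl).comp (aL rl)) ≤
      (LinearMap.range (CR σ cl rl)).map (PhiL σ l) := by
    rintro _ ⟨F, hF, rfl⟩
    obtain ⟨u, rfl⟩ := hcs hF
    exact ⟨CR σ cl rl u, ⟨u, rfl⟩, (ba_Phi σ l rl cl u).symm⟩
  refine (Submodule.finrank_mono h3).trans ?_
  refine (Submodule.finrank_map_le _ _).trans ?_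
  exact finrank_CR_le σ t

end

end Vale.Agent.P197.H528
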