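import Vale.Agent.P197.H528.Rank

/-!
# P197 with multiplicities: the conjugation step for ranks (helper528)
-/

set_option linter.all false

namespace Vale.Agent.P197.H528

open Equiv Finset Vale.Agent.P197

noncomputable section

variable {X : Type} [Fintype X] [DecidableEq X]

/-- Multiplication by the sign, as a linear equivalence over `ℂ`. -/
def sgnE : (Perm X → ℂ) ≃ₗ[ℂ] (Perm X → ℂ) where
  toFun F := fun h => ((Perm.sign h : ℤ) : ℂ) * F h
  invFun F := fun h => ((Perm.sign h : ℤ) : ℂ) * F h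
  map_add' F F' := by
    funext h
    simp [mul_add]
  map_smul' a F := by
    funext h
    simp only [Pi.smul_apply, smul_eq_mul, RingHom.id_apply]
    ring
  left_inv F := by
    funext h
    change ((Perm.sign h : ℤ) : ℂ) * (((Perm.sign h : ℤ) : ℂ) * F h) = F h
    rw [← mul_assoc, Conj.sgn_sq, one_mul]
  right_inv F := by
    funext h
    change ((Perm.sign h : ℤ) : ℂ) * (((Perm.sign h : ℤ) : ℂ) * F h) = F h
    rw [← mul_assoc, Conj.sgn_sq, one_mul]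

theorem sgnE_apply (F : Perm X → ℂ) (h : Perm X) :
    sgnE F h = ((Perm.sign h : ℤ) : ℂ) * F h := rfl

theorem SO_sgn (rl cl : X → ℕ) (F : Perm X → ℂ) :
    SO cl rl (Conj.sgnMul F) = sgnE ((bL cl) ((aL rl) F)) := by
  funext h
  rw [SO_apply, sgnE_apply]
  change _ = ((Perm.sign h : ℤ) : ℂ) * ∑ ρ ∈ stab cl, ((Perm.sign ρ : ℤ) : ℂ) *
    ∑ π ∈ stab rl, ((1 : ℤ) : ℂ) * F (h * ρ * π)
  rw [Finset.mul_sum]
  refine Finset.sum_congr rfl (fun ρ _ => ?_)
  rw [Finset.mul_sum, Finset.mul_sum]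
  refine Finset.sum_congr rfl (fun π _ => ?_)
  rw [Conj.sgnMul_apply, Conj.sgn_mul, Conj.sgn_mul, Int.cast_one]
  linear_combination (((Perm.sign h : ℤ) : ℂ) * ((Perm.sign ρ : ℤ) : ℂ) * F (h * ρ * π)) *
    Conj.sgn_sq π

theorem rk_twist (Q : Submodule ℤ (Perm X → ℂ))
    (hQ : ∀ (g : Perm X), ∀ F ∈ Q, (fun h => F (h * g)) ∈ Q) (rl cl : X → ℕ) :
    rk Q rl cl ≤ rk (Q.map Conj.sgnMul) cl rl := by
  have h1 : (SO cl rl) '' ((Q.map Conj.sgnMul : Submodule ℤ (Perm X → ℂ)) : Set (Perm X → ℂ)) =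
      sgnE '' (((bL cl).comp (aL rl)) '' (Q : Set (Perm X → ℂ))) := by
    ext G
    constructor
    · rintro ⟨_, ⟨F, hF, rfl⟩, rfl⟩
      exact ⟨_, ⟨F, hF, rfl⟩, (SO_sgn rl cl F).symm⟩
    · rintro ⟨_, ⟨F, hF, rfl⟩, rfl⟩
      exact ⟨_, ⟨F, hF, rfl⟩, SO_sgn rl cl F⟩
  have h2 : rk (Q.map Conj.sgnMul) cl rl =
      Module.finrank ℂ (((cs Q).map ((bL cl).comp (aL rl))).map
        (sgnE (X := X)).toLinearMap) := by
    unfold rk
    rw [h1, Submodule.map_span, Submodule.map_span]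
    rfl
  rw [h2, LinearEquiv.finrank_map_eq (sgnE (X := X)), rk_eq, SO_eq]
  exact flip_rank (cs Q) rl cl (fun F hF => rsumL_cs Q hQ _ _ hF)

theorem flip_step {m : ℕ} {i j : X → ℕ} (hs : IsStair m i j) {b : BF X}
    {Q : Submodule ℤ (Perm X → ℂ)} (hg : Good m i j b Q) :
    ∃ (b' : BF X) (Q' : Submodule ℤ (Perm X → ℂ)), Good m i j b' Q' ∧
      ∀ rl cl : X → ℕ, rk Q rl cl ≤ rk Q' cl rl :=
  ⟨_, _, Conj.good_theta hs hg, fun rl cl => rk_twist Q hg.stable rl cl⟩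

end

end Vale.Agent.P197.H528
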