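import Vale.Agent.P197.H528.Main
import Vale.Agent.P197.H528.Comb3

/-!
# P197 with multiplicities: lower bounds for all nontrivial diagrams (helper528)
-/

set_option linter.all false

namespace Vale.Agent.P197.H528

open Finset Vale.Agent.P197

theorem kron_of_has {a m : ℕ} {ν : YoungDiagram} (hν : ν.card = m * (m + 1) / 2)
    (h : Has a m ν) : a ≤ kron (m * (m + 1) / 2) (staircase m) (staircase m) ν := by
  obtain ⟨ε, hε⟩ := h
  exact hε.trans (chains_le_kron ε m ν hν)

/-- The bound for diagrams with at least two cells outside the first row and outside the first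
column. -/
theorem kron_low {m : ℕ} {ν : YoungDiagram} (hν : ν.card = m * (m + 1) / 2)
    (h1 : ν.rowLen 0 + 2 ≤ m * (m + 1) / 2) (h2 : ν.colLen 0 + 2 ≤ m * (m + 1) / 2) :
    min (m - 1) (2 ^ ((m - 6) / 4)) ≤ kron (m * (m + 1) / 2) (staircase m) (staircase m) ν := by
  have h3 := drow_add ν
  have h4 := drow_add ν.transpose
  rw [YoungDiagram.rowLen_transpose, Saxl.card_transpose] at h4
  exact kron_of_has hν (low m ν hν (by omega) (by omega))

/-- Every diagram other than one row and one column has at least `m / 2` chains or ... -/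
theorem kron_half {m : ℕ} {ν : YoungDiagram} (hν : ν.card = m * (m + 1) / 2)
    (h1 : ν.rowLen 0 + 1 = m * (m + 1) / 2 ∨ ν.colLen 0 + 1 = m * (m + 1) / 2) :
    m / 2 ≤ kron (m * (m + 1) / 2) (staircase m) (staircase m) ν := by
  have h3 := drow_add ν
  have h4 := drow_add ν.transpose
  rw [YoungDiagram.rowLen_transpose, Saxl.card_transpose] at h4
  rcases h1 with h1 | h1
  · exact kron_of_has hν ⟨_, near_one m ν hν (by omega)⟩
  · refine kron_of_has hν (Has.transpose ⟨_, near_one m ν.transpose ?_ (by omega)⟩)
    rw [Saxl.card_transpose]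
    exact hν

end Vale.Agent.P197.H528
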