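import Vale.Agent.P197.H528.Peel2
import Vale.Agent.P197.H528.Flip
import Vale.Agent.P197.H528.Final

/-!
# P197 with multiplicities: chains bound Kronecker coefficients of staircases (helper528)
-/

set_option linter.all false

namespace Vale.Agent.P197.H528

open Equiv Finset Vale.Agent.P197

noncomputable section

variable {X : Type} [Fintype X] [DecidableEq X]

theorem one_le_rk {Q : Submodule ℤ (Perm X → ℂ)} {rl cl : X → ℕ} {F : Perm X → ℂ} (hF : F ∈ Q)
    (hne : SO rl cl F ≠ 0) : 1 ≤ rk Q rl cl := by
  have := card_le_rk (ι := Unit) (rl := rl) (cl := cl) (fun _ => F) (fun _ => hF)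
    (LinearIndependent.of_subsingleton () hne)
  simpa using this

theorem base_rk {m : ℕ} (hm : m ≤ 1) {i j : X → ℕ} (hs : IsStair m i j) :
    ∃ (b : BF X) (Q : Submodule ℤ (Perm X → ℂ)), Good m i j b Q ∧
      ∀ rl cl : X → ℕ, 1 ≤ rk Q rl cl := by
  have hi : ∀ x, i x = 0 := fun x => by have := hs.lt x; omega
  have hj : ∀ x, j x = 0 := fun x => by have := hs.lt x; omega
  have hX : Subsingleton X := ⟨fun x y => hs.inj x y (by rw [hi, hi]) (by rw [hj, hj])⟩
  have hstab : ∀ f : X → ℕ, stab f = {1} := by
    intro f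
    ext π
    rw [mem_stab, Finset.mem_singleton]
    constructor
    · intro _
      exact Subsingleton.elim _ _
    · rintro rfl x
      rfl
  obtain ⟨b, Q, hg, rl, cl, hl, F, hF, hocc⟩ := T_base hm hs (staircase m) (card_staircase m)
  refine ⟨b, Q, hg, fun rl' cl' => one_le_rk hF ?_⟩
  intro h0
  apply hocc
  have h1 := congrFun h0 1
  rw [SO_apply, hstab, hstab] at h1
  rw [occ, hstab, hstab]
  simpa using h1

theorem sum_step_false (k : ℕ) (ν : YoungDiagram) (w : YoungDiagram → ℕ) :
    ∑ τ ∈ step true k ν.transpose, w τ.transpose = ∑ τ ∈ step false k ν, w τ := by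
  refine Finset.sum_bij' (fun τ _ => τ.transpose) (fun τ _ => τ.transpose) ?_ ?_ ?_ ?_ ?_
  · intro τ hτ
    obtain ⟨h1, h2, h3⟩ := mem_step.mp hτ
    simp only [if_true] at h3
    refine mem_step.mpr ⟨?_, ?_, ?_⟩
    · have := YoungDiagram.transpose_mono h1
      rwa [YoungDiagram.transpose_transpose] at this
    · rw [Saxl.card_transpose]
      exact h2
    · simp only [Bool.false_eq_true, if_false]
      intro r
      have := h3 r
      rw [YoungDiagram.colLen_transpose] at this
      rw [YoungDiagram.rowLen_transpose]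
      exact this
  · intro τ hτ
    obtain ⟨h1, h2, h3⟩ := mem_step.mp hτ
    simp only [Bool.false_eq_true, if_false] at h3
    refine mem_step.mpr ⟨YoungDiagram.transpose_mono h1, ?_, ?_⟩
    · rw [Saxl.card_transpose]
      exact h2
    · simp only [if_true]
      intro r
      have := h3 r
      rwa [YoungDiagram.colLen_transpose, YoungDiagram.colLen_transpose]
  · intro τ _
    exact YoungDiagram.transpose_transpose τ
  · intro τ _
    exact YoungDiagram.transpose_transpose τ
  · intro τ _
    rfl

/-- The main induction. -/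
theorem chains_rk (ε : ℕ → Bool) (m : ℕ) : ∀ (X : Type) [Fintype X] [DecidableEq X]
    (i j : X → ℕ), IsStair m i j → ∃ (b : BF X) (Q : Submodule ℤ (Perm X → ℂ)),
      Good m i j b Q ∧ ∀ ν : YoungDiagram, ν.card = m * (m + 1) / 2 → ∀ rl cl : X → ℕ,
        IsLabel ν.cells rl cl → chains ε m ν ≤ rk Q rl cl := by
  induction m using Nat.strong_induction_on with
  | _ m ih =>
    intro X _ _ i j hs
    match m, ih, hs with
    | 0, _, hs =>
      obtain ⟨b, Q, hg, h⟩ := base_rk (by omega) hs
      exact ⟨b, Q, hg, fun ν _ rl cl _ => h rl cl⟩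
    | 1, _, hs =>
      obtain ⟨b, Q, hg, h⟩ := base_rk (by omega) hs
      exact ⟨b, Q, hg, fun ν _ rl cl _ => h rl cl⟩
    | k + 2, ih, hs =>
      classical
      let p : X → Prop := fun x => k + 2 ≤ i x + j x + 2
      have hp : ∀ x, p x ↔ k + 2 ≤ i x + j x + 2 := fun x => Iff.rfl
      have hlow := hs.low p hp
      obtain ⟨b₂, Q₂, hg₂, h₂⟩ := ih k (by omega) {x // ¬ p x} _ _ hlow
      cases hε : ε (k + 2) with
      | true =>
        obtain ⟨b, Q, hg, h⟩ := peel_rk (by omega) hs p hp hg₂ (chains ε k) h₂
        refine ⟨b, Q, hg, fun ν hν rl cl hl => ?_⟩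
        have := h ν hν rl cl hl
        simp only [Nat.add_sub_cancel] at this
        rw [chains, hε]
        exact this
      | false =>
        obtain ⟨b₃, Q₃, hg₃, h₃⟩ := flip_step hlow hg₂
        obtain ⟨b, Q, hg, h⟩ := peel_rk (by omega) hs p hp hg₃ (fun τ => chains ε k τ.transpose)
          (by
            intro τ hτ rl cl hl
            refine (h₂ τ.transpose ?_ cl rl (Conj.label_swap hl)).trans (h₃ cl rl)
            rw [Saxl.card_transpose]
            exact hτ)
        obtain ⟨b', Q', hg', h'⟩ := flip_step hs hg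
        refine ⟨b', Q', hg', fun ν hν rl cl hl => ?_⟩
        have h4 := h ν.transpose (by rw [Saxl.card_transpose]; exact hν) cl rl
          (Conj.label_swap hl)
        simp only [Nat.add_sub_cancel] at h4
        rw [chains, hε, ← sum_step_false]
        exact h4.trans (h' cl rl)

/-- **Theorem A.** The number of chains is at most the Kronecker coefficient. -/
theorem chains_le_kron (ε : ℕ → Bool) (m : ℕ) (ν : YoungDiagram)
    (hν : ν.card = m * (m + 1) / 2) :
    chains ε m ν ≤ kron (m * (m + 1) / 2) (staircase m) (staircase m) ν := by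
  have hcard : Fintype.card (staircase m).cells = m * (m + 1) / 2 := by
    rw [Fintype.card_coe]
    exact card_staircase m
  let t : (staircase m).cells ≃ Fin (m * (m + 1) / 2) := Fintype.equivFinOfCardEq hcard
  have hs : IsStair m (fun x => (t.symm x).1.1) (fun x => (t.symm x).1.2) := by
    refine ⟨?_, ?_, ?_⟩
    · intro x
      exact mem_staircase.mp ((YoungDiagram.mem_cells _).mp (t.symm x).2)
    · intro x x' h1 h2
      exact t.symm.injective (Subtype.ext (Prod.ext h1 h2))
    · intro a b hab
      refine ⟨t ⟨(a, b), (YoungDiagram.mem_cells _).mpr (mem_staircase.mpr hab)⟩, ?_, ?_⟩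
      · simp
      · simp
  obtain ⟨b, Q, hg, h⟩ := chains_rk ε m _ _ _ hs
  have hcard' : Fintype.card ν.cells = m * (m + 1) / 2 := by
    rw [Fintype.card_coe]
    exact hν
  let s : ν.cells ≃ Fin (m * (m + 1) / 2) := Fintype.equivFinOfCardEq hcard'
  have hl : IsLabel ν.cells (fun x => (s.symm x).1.1) (fun x => (s.symm x).1.2) := by
    refine ⟨?_, ?_, ?_⟩
    · intro x
      exact (s.symm x).2
    · intro x x' h1 h2
      exact s.symm.injective (Subtype.ext (Prod.ext h1 h2))
    · intro c hc
      refine ⟨s ⟨c, hc⟩, ?_, ?_⟩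
      · simp
      · simp
  exact (h ν hν _ _ hl).trans (rk_le_kron hs hg _ _ hl)

end

end Vale.Agent.P197.H528
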