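import Vale.Agent.P197.H528.Tri
import Mathlib.Algebra.Module.Submodule.Union

/-!
# P197 with multiplicities: the peeling step for ranks (helper528)
-/

set_option linter.all false

namespace Vale.Agent.P197.H528

open Equiv Finset Vale.Agent.P197

noncomputable section

/-- Linear independence from triangularity. -/
theorem linInd_of_tri {ι : Type*} [Fintype ι] [DecidableEq ι] {α : ι → Type*}
    [∀ i, Fintype (α i)] {V : Type*} [AddCommGroup V] [Module ℂ V] {W : ι → Type*}
    [∀ i, AddCommGroup (W i)] [∀ i, Module ℂ (W i)] (v : (Σ i, α i) → V)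
    (ev : ∀ i, V →ₗ[ℂ] W i) (f : ι → ℕ)
    (h0 : ∀ i j a, i ≠ j → ¬ f i < f j → ev j (v ⟨i, a⟩) = 0)
    (h1 : ∀ i, LinearIndependent ℂ (fun a => ev i (v ⟨i, a⟩))) : LinearIndependent ℂ v := by
  classical
  rw [Fintype.linearIndependent_iff]
  intro c hc
  have key : ∀ n : ℕ, ∀ i, f i = n → ∀ a, c ⟨i, a⟩ = 0 := by
    intro n
    induction n using Nat.strong_induction_on with
    | _ n ih =>
      intro i hi
      have h2 : ∑ j, ∑ a, c ⟨j, a⟩ • ev i (v ⟨j, a⟩) = 0 := by
        have := congrArg (ev i) hc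
        rw [map_sum, map_zero, Fintype.sum_sigma] at this
        simpa only [map_smul] using this
      rw [Finset.sum_eq_single i] at h2
      · exact Fintype.linearIndependent_iff.mp (h1 i) (fun a => c ⟨i, a⟩) h2
      · intro j _ hji
        refine Finset.sum_eq_zero (fun a _ => ?_)
        by_cases hlt : f j < f i
        · rw [ih (f j) (hi ▸ hlt) j rfl a, zero_smul]
        · rw [h0 j i a hji hlt, smul_zero]
      · intro hni
        exact absurd (Finset.mem_univ i) hni
  rintro ⟨i, a⟩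
  exact key (f i) i rfl a

/-- The row sum of a word form is linear in the kernel. -/
theorem kform_add {X : Type} (y y' : (X → ℕ) → (X → ℕ) → ℂ) :
    kform (y + y') = kform y + kform y' := by
  refine LinearMap.ext fun v => LinearMap.ext fun w => ?_
  rw [LinearMap.add_apply, LinearMap.add_apply]
  induction v using Finsupp.induction_linear with
  | zero => simp only [map_zero, LinearMap.zero_apply, add_zero]
  | add v v' h h' =>
    simp only [map_add, LinearMap.add_apply, h, h']
    ring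
  | single u a =>
    induction w using Finsupp.induction_linear with
    | zero => simp only [map_zero, add_zero]
    | add w w' h h' =>
      simp only [map_add, h, h']
      ring
    | single u' a' =>
      rw [kform_single, kform_single, kform_single, Pi.add_apply, Pi.add_apply]
      ring

theorem kform_smul {X : Type} (c : ℂ) (y : (X → ℕ) → (X → ℕ) → ℂ) :
    kform (c • y) = c • kform y := by
  refine LinearMap.ext fun v => LinearMap.ext fun w => ?_
  rw [LinearMap.smul_apply, LinearMap.smul_apply]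
  induction v using Finsupp.induction_linear with
  | zero => simp only [map_zero, LinearMap.zero_apply, smul_zero]
  | add v v' h h' =>
    simp only [map_add, LinearMap.add_apply, h, h', smul_add]
  | single u a =>
    induction w using Finsupp.induction_linear with
    | zero => simp only [map_zero, smul_zero]
    | add w w' h h' =>
      simp only [map_add, h, h', smul_add]
    | single u' a' =>
      rw [kform_single, kform_single, Pi.smul_apply, Pi.smul_apply, smul_eq_mul, smul_eq_mul]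
      ring

/-- The functional of the kernel used for the top two levels. -/
def topL {A : Type} [Fintype A] [DecidableEq A] (m : ℕ) (i j rl cl : A → ℕ) :
    ((A → ℕ) → (A → ℕ) → ℂ) →ₗ[ℂ] ℂ where
  toFun y := ∑ ρ ∈ stab rl, ∑ π ∈ stab cl, ((Perm.sign π : ℤ) : ℂ) *
    Fn (kform y) (e0 m i j) (e1 m i j) (ρ * π)
  map_add' y y' := by
    simp only [Fn, kform_add, LinearMap.add_apply, mul_add, Finset.sum_add_distrib]
  map_smul' c y := by
    simp only [Fn, kform_smul, LinearMap.smul_apply, smul_eq_mul, RingHom.id_apply,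
      Finset.mul_sum]
    refine Finset.sum_congr rfl (fun ρ _ => Finset.sum_congr rfl (fun π _ => ?_))
    ring

theorem topL_apply {A : Type} [Fintype A] [DecidableEq A] (m : ℕ) (i j rl cl : A → ℕ)
    (y : (A → ℕ) → (A → ℕ) → ℂ) :
    topL m i j rl cl y = ∑ ρ ∈ stab rl, ∑ π ∈ stab cl, ((Perm.sign π : ℤ) : ℂ) *
      Fn (kform y) (e0 m i j) (e1 m i j) (ρ * π) := rfl

/-- The set of cells is separated. -/
def SepS (m : ℕ) (S : Finset (ℕ × ℕ)) : Prop :=
  S.card = 2 * m - 1 ∧ ∀ c ∈ S, ∀ c' ∈ S, c.2 = c'.2 → c.1 % 4 = c'.1 % 4 → c = c'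

theorem exists_topL {A : Type} [Fintype A] [DecidableEq A] {m : ℕ} (hm : 1 ≤ m)
    {i j : A → ℕ} (hz : IsZig m i j) (S : Finset (ℕ × ℕ)) (hS : SepS m S) :
    ∃ rl cl : A → ℕ, IsLabel S rl cl ∧ ∃ y, topL m i j rl cl y ≠ 0 := by
  obtain ⟨rl, cl, hl, y, hy, hne⟩ := exists_kernel hm hz S hS.1 hS.2
  refine ⟨rl, cl, hl, y, ?_⟩
  rw [topL_apply]
  have e2 : ∀ ρ ∈ stab rl,
      ∑ π ∈ stab cl, ((Perm.sign π : ℤ) : ℂ) * Fn (kform y) (e0 m i j) (e1 m i j) (ρ * π) =
      ∑ π ∈ stab cl, ((Perm.sign π : ℤ) : ℂ) * Fn (kform y) (e0 m i j) (e1 m i j) π := by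
    intro ρ hρ
    refine Finset.sum_congr rfl (fun π _ => ?_)
    congr 1
    simp only [Fn, map_mul, Module.End.mul_apply]
    exact kform_invariant y ρ (hy ρ hρ) _ _
  rw [Finset.sum_congr rfl e2, Finset.sum_const, nsmul_eq_mul]
  refine mul_ne_zero ?_ hne
  rw [Nat.cast_ne_zero]
  exact Finset.card_ne_zero_of_mem (Conj.one_mem_stab rl)

/-- **Common kernel**: one kernel for all separated sets in a finite family. -/
theorem exists_common {A : Type} [Fintype A] [DecidableEq A] {m : ℕ} (hm : 1 ≤ m)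
    {i j : A → ℕ} (hz : IsZig m i j) (P : Finset (Finset (ℕ × ℕ))) :
    ∃ y : (A → ℕ) → (A → ℕ) → ℂ, ∀ S ∈ P, SepS m S →
      ∃ rl cl : A → ℕ, IsLabel S rl cl ∧ topL m i j rl cl y ≠ 0 := by
  classical
  let ι := {S : Finset (ℕ × ℕ) // S ∈ P ∧ SepS m S}
  have hfin : Finite ι := by
    refine Finite.of_injective (β := {S // S ∈ P}) (fun s => ⟨s.1, s.2.1⟩) ?_
    intro s s' h
    have h' : s.1 = s'.1 := congrArg (fun t : {S // S ∈ P} => t.1) h
    exact Subtype.ext h'
  choose rl cl hl y0 hy0 using fun s : ι => exists_topL hm hz s.1 s.2.2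
  obtain ⟨y, hy⟩ := Module.Dual.exists_forall_ne_zero_of_forall_exists
    (fun s : ι => (topL m i j (rl s) (cl s) : Module.Dual ℂ ((A → ℕ) → (A → ℕ) → ℂ)))
    (fun s => ⟨y0 s, hy0 s⟩)
  exact ⟨y, fun S hS hsep => ⟨rl ⟨S, hS, hsep⟩, cl ⟨S, hS, hsep⟩, hl ⟨S, hS, hsep⟩,
    hy ⟨S, hS, hsep⟩⟩⟩

/-- Gluing labels. -/
theorem glue_label {X : Type} (p : X → Prop) [DecidablePred p] {ν τ : YoungDiagram}
    (hle : τ ≤ ν) {rlA clA : {x // p x} → ℕ} {rlB clB : {x // ¬ p x} → ℕ}
    (hA : IsLabel (ν.cells \ τ.cells) rlA clA) (hB : IsLabel τ.cells rlB clB) :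
    ∃ rl cl : X → ℕ, IsLabel ν.cells rl cl ∧ resW p rl = rlA ∧ resW p cl = clA ∧
      resW (fun x => ¬ p x) rl = rlB ∧ resW (fun x => ¬ p x) cl = clB ∧
      ∀ x, ¬ p x ↔ (rl x, cl x) ∈ τ := by
  classical
  set rl : X → ℕ := fun x => if h : p x then rlA ⟨x, h⟩ else rlB ⟨x, h⟩ with hrl
  set cl : X → ℕ := fun x => if h : p x then clA ⟨x, h⟩ else clB ⟨x, h⟩ with hcl
  have hrlA : ∀ (x : X) (h : p x), rl x = rlA ⟨x, h⟩ := fun x h => by rw [hrl]; exact dif_pos h
  have hclA : ∀ (x : X) (h : p x), cl x = clA ⟨x, h⟩ := fun x h => by rw [hcl]; exact dif_pos h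
  have hrl2 : ∀ (x : X) (h : ¬ p x), rl x = rlB ⟨x, h⟩ := fun x h => by
    rw [hrl]; exact dif_neg h
  have hcl2 : ∀ (x : X) (h : ¬ p x), cl x = clB ⟨x, h⟩ := fun x h => by
    rw [hcl]; exact dif_neg h
  have hin : ∀ x, p x → (rl x, cl x) ∈ ν.cells \ τ.cells := by
    intro x hx
    rw [hrlA x hx, hclA x hx]
    exact hA.mem _
  have hout : ∀ x, ¬ p x → (rl x, cl x) ∈ τ.cells := by
    intro x hx
    rw [hrl2 x hx, hcl2 x hx]
    exact hB.mem _
  refine ⟨rl, cl, ⟨?_, ?_, ?_⟩, ?_, ?_, ?_, ?_, ?_⟩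
  · intro x
    by_cases hx : p x
    · exact (Finset.mem_sdiff.mp (hin x hx)).1
    · exact hle (hout x hx)
  · intro x x' h1 h2
    by_cases hx : p x
    · by_cases hx' : p x'
      · have := hA.inj ⟨x, hx⟩ ⟨x', hx'⟩ (by rw [← hrlA, ← hrlA, h1])
          (by rw [← hclA, ← hclA, h2])
        exact congrArg Subtype.val this
      · have h3 := (Finset.mem_sdiff.mp (hin x hx)).2
        have h4 := hout x' hx'
        rw [h1, h2] at h3
        exact absurd h4 h3
    · by_cases hx' : p x'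
      · have h3 := (Finset.mem_sdiff.mp (hin x' hx')).2
        have h4 := hout x hx
        rw [← h1, ← h2] at h3
        exact absurd h4 h3
      · have := hB.inj ⟨x, hx⟩ ⟨x', hx'⟩ (by rw [← hrl2, ← hrl2, h1])
          (by rw [← hcl2, ← hcl2, h2])
        exact congrArg Subtype.val this
  · intro c hc
    by_cases hc2 : c ∈ τ.cells
    · obtain ⟨x, h1, h2⟩ := hB.surj c hc2
      exact ⟨x.1, by rw [hrl2 x.1 x.2, ← h1], by rw [hcl2 x.1 x.2, ← h2]⟩
    · obtain ⟨x, h1, h2⟩ := hA.surj c (Finset.mem_sdiff.mpr ⟨hc, hc2⟩)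
      exact ⟨x.1, by rw [hrlA x.1 x.2, ← h1], by rw [hclA x.1 x.2, ← h2]⟩
  · funext x
    exact hrlA x.1 x.2
  · funext x
    exact hclA x.1 x.2
  · funext x
    exact hrl2 x.1 x.2
  · funext x
    exact hcl2 x.1 x.2
  · intro x
    constructor
    · exact hout x
    · intro h hx
      exact (Finset.mem_sdiff.mp (hin x hx)).2 h

/-- Two labels by the same cells differ by a permutation. -/
theorem label_perm {X : Type} [Fintype X] {S : Finset (ℕ × ℕ)} {rl cl rl' cl' : X → ℕ}
    (h : IsLabel S rl cl) (h' : IsLabel S rl' cl') :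
    ∃ g : Perm X, (∀ x, rl (g x) = rl' x) ∧ ∀ x, cl (g x) = cl' x := by
  classical
  choose g hg1 hg2 using fun x => h.surj (rl' x, cl' x) (h'.mem x)
  have hinj : Function.Injective g := by
    intro x x' hxx
    refine h'.inj x x' ?_ ?_
    · have h1 := hg1 x
      have h2 := hg1 x'
      rw [hxx] at h1
      exact h1.symm.trans h2
    · have h1 := hg2 x
      have h2 := hg2 x'
      rw [hxx] at h1
      exact h1.symm.trans h2
  exact ⟨Equiv.ofBijective g (Finite.injective_iff_bijective.mp hinj), hg1, hg2⟩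

variable {X : Type} [Fintype X] [DecidableEq X]

/-- Transport of a sum over a stabiliser. -/
theorem sum_stab_conj {M : Type*} [AddCommMonoid M] (f : X → ℕ) (g : Perm X) (F : Perm X → M) :
    ∑ ρ ∈ stab f, F ρ = ∑ ρ ∈ stab (fun x => f (g x)), F (g * ρ * g⁻¹) := by
  refine Finset.sum_bij' (fun ρ _ => g⁻¹ * ρ * g) (fun ρ _ => g * ρ * g⁻¹) ?_ ?_ ?_ ?_ ?_
  · intro ρ hρ
    rw [mem_stab] at hρ ⊢
    intro x
    simp only [Perm.mul_apply]
    rw [app_inv, hρ]
  · intro ρ hρ
    rw [mem_stab] at hρ ⊢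
    intro x
    simp only [Perm.mul_apply]
    have := hρ (g⁻¹ x)
    rw [app_inv] at this
    exact this
  · intro ρ _
    group
  · intro ρ _
    group
  · intro ρ _
    congr 1
    group

/-- The Young symmetriser of a right translate. -/
theorem SO_translate (rl cl : X → ℕ) (g : Perm X) (F : Perm X → ℂ) (h : Perm X) :
    SO rl cl (fun k => F (k * g)) h =
      SO (fun x => rl (g x)) (fun x => cl (g x)) F (h * g) := by
  rw [SO_apply, SO_apply, sum_stab_conj rl g]
  refine Finset.sum_congr rfl (fun ρ _ => ?_)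
  rw [sum_stab_conj cl g]
  refine Finset.sum_congr rfl (fun π _ => ?_)
  have h1 : (Perm.sign (g * π * g⁻¹) : ℤˣ) = Perm.sign π := by
    rw [Perm.sign_mul, Perm.sign_mul, Perm.sign_inv, mul_comm (Perm.sign g), mul_assoc,
      Int.units_mul_self, mul_one]
  rw [h1]
  congr 2
  group

/-- The value of the Young symmetriser of a glued function. -/
theorem SO_glue (p : X → Prop) [DecidablePred p] (τ : YoungDiagram) (rl cl : X → ℕ)
    (hp : ∀ x, ¬ p x ↔ (rl x, cl x) ∈ τ)
    (FA : Perm {x // p x} → ℂ) (FB : Perm {x // ¬ p x} → ℂ) (kB : Perm {x // ¬ p x}) :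
    SO rl cl (glueFn p FA FB) (Perm.subtypeCongr 1 kB) =
      (∑ ρ ∈ stab (resW p rl), ∑ π ∈ stab (resW p cl), ((Perm.sign π : ℤ) : ℂ) * FA (ρ * π)) *
      SO (resW (fun x => ¬ p x) rl) (resW (fun x => ¬ p x) cl) FB kB := by
  have key := occ_factor p rl cl (fun c => τ.colLen c) (fun x => by
    rw [hp x, YoungDiagram.mem_iff_lt_colLen]) (glueFn p FA FB) FA FB
    (glueFn_ne_zero p FA FB) (glueFn_subtypeCongr p FA FB) 1 1 kB⁻¹ 1
  have hone : (Perm.subtypeCongr (1 : Perm {x // p x}) (1 : Perm {x // ¬ p x})) = 1 := by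
    ext x
    by_cases hx : p x
    · rw [Perm.subtypeCongr.left_apply _ _ hx]
      rfl
    · rw [Perm.subtypeCongr.right_apply _ _ hx]
      rfl
  have hinv : (Perm.subtypeCongr (1 : Perm {x // p x}) (kB⁻¹ : Perm {x // ¬ p x}))⁻¹ =
      Perm.subtypeCongr 1 kB := by
    rw [subtypeCongr_inv, inv_one, inv_inv]
  rw [hone, hinv] at key
  simp only [inv_one, one_mul, mul_one, inv_inv] at key
  exact key

end

end Vale.Agent.P197.H528
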