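import Vale.Agent.P197.H528.Peel

/-!
# P197 with multiplicities: the peeling step for ranks (helper528)
-/

set_option linter.all false

namespace Vale.Agent.P197.H528

open Equiv Finset Vale.Agent.P197

noncomputable section

variable {X : Type} [Fintype X] [DecidableEq X]

theorem exists_fam {Q : Submodule ℤ (Perm X → ℂ)} {rl cl : X → ℕ} {w : ℕ} (h : w ≤ rk Q rl cl) :
    ∃ f : Fin w → (Perm X → ℂ), (∀ a, f a ∈ Q) ∧
      LinearIndependent ℂ (fun a => SO rl cl (f a)) := by
  obtain ⟨f, hf, -, hli⟩ := Submodule.exists_fun_fin_finrank_span_eq ℂ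
    ((SO rl cl) '' (Q : Set (Perm X → ℂ)))
  choose F hF1 hF2 using fun a => hf a
  refine ⟨fun a => F (Fin.castLE h a), fun a => hF1 _, ?_⟩
  have : (fun a : Fin w => SO rl cl (F (Fin.castLE h a))) = f ∘ (Fin.castLE h) := by
    funext a
    exact hF2 _
  rw [this]
  exact hli.comp _ (Fin.castLE_injective h)

theorem card_le_rk {Q : Submodule ℤ (Perm X → ℂ)} {rl cl : X → ℕ} {ι : Type*} [Fintype ι]
    (f : ι → (Perm X → ℂ)) (hf : ∀ a, f a ∈ Q)
    (hli : LinearIndependent ℂ (fun a => SO rl cl (f a))) : Fintype.card ι ≤ rk Q rl cl := by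
  unfold rk
  rw [← finrank_span_eq_card hli]
  refine Submodule.finrank_mono (Submodule.span_mono ?_)
  rintro _ ⟨a, rfl⟩
  exact ⟨f a, hf a, rfl⟩

theorem cells_sub (ν : YoungDiagram) :
    ν.cells ⊆ Finset.range ν.card ×ˢ Finset.range ν.card := by
  rintro ⟨a, b⟩ h
  rw [YoungDiagram.mem_cells] at h
  rw [Finset.mem_product, Finset.mem_range, Finset.mem_range]
  constructor
  · have h1 : (Finset.range (a + 1)).image (fun k => (k, b)) ⊆ ν.cells := by
      intro c hc
      rw [Finset.mem_image] at hc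
      obtain ⟨k, hk, rfl⟩ := hc
      rw [Finset.mem_range] at hk
      rw [YoungDiagram.mem_cells]
      exact ν.up_left_mem (by omega) le_rfl h
    have h2 := Finset.card_le_card h1
    rw [Finset.card_image_of_injective _ (fun x y hxy => by simpa using hxy),
      Finset.card_range] at h2
    exact h2
  · have h1 : (Finset.range (b + 1)).image (fun k => (a, k)) ⊆ ν.cells := by
      intro c hc
      rw [Finset.mem_image] at hc
      obtain ⟨k, hk, rfl⟩ := hc
      rw [Finset.mem_range] at hk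
      rw [YoungDiagram.mem_cells]
      exact ν.up_left_mem le_rfl (by omega) h
    have h2 := Finset.card_le_card h1
    rw [Finset.card_image_of_injective _ (fun x y hxy => by simpa using hxy),
      Finset.card_range] at h2
    exact h2

theorem sep_of_step {m : ℕ} (hm : 2 ≤ m) {ν τ : YoungDiagram} (hν : ν.card = m * (m + 1) / 2)
    (hτ : τ ∈ step true ((m - 2) * (m - 2 + 1) / 2) ν) : SepS m (ν.cells \ τ.cells) := by
  obtain ⟨hle, hcard, hcol⟩ := mem_step.mp hτ
  simp only [if_true] at hcol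
  constructor
  · rw [Finset.card_sdiff_of_subset hle]
    change ν.card - τ.card = _
    rw [hν, hcard]
    obtain ⟨k, rfl⟩ := Nat.exists_eq_add_of_le hm
    have h1 : (2 + k) * (2 + k + 1) = (2 + k - 2) * (2 + k - 2 + 1) + 2 * (2 * k + 3) := by
      simp only [Nat.add_sub_cancel_left]
      ring
    rw [h1, Nat.add_mul_div_left _ _ (by norm_num)]
    omega
  · have hSmem : ∀ c : ℕ × ℕ, c ∈ ν.cells \ τ.cells ↔
        c.1 < ν.colLen c.2 ∧ τ.colLen c.2 ≤ c.1 := by
      intro c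
      rw [Finset.mem_sdiff, YoungDiagram.mem_cells, YoungDiagram.mem_cells,
        ← YoungDiagram.mem_iff_lt_colLen, ← not_lt, ← YoungDiagram.mem_iff_lt_colLen]
    intro c hc c' hc' h2 h4
    rw [hSmem] at hc hc'
    have h := hcol c.2
    rw [← h2] at hc'
    refine Prod.ext ?_ h2
    omega

/-- **Peeling step for ranks.** -/
theorem peel_rk {m : ℕ} (hm : 2 ≤ m) {i j : X → ℕ} (hs : IsStair m i j)
    (p : X → Prop) [DecidablePred p] (hp : ∀ x, p x ↔ m ≤ i x + j x + 2)
    {b₂ : BF {x // ¬ p x}} {Q₂ : Submodule ℤ (Perm {x // ¬ p x} → ℂ)}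
    (h₂ : Good (m - 2) (resW (fun x => ¬ p x) i) (resW (fun x => ¬ p x) j) b₂ Q₂)
    (w : YoungDiagram → ℕ)
    (hw : ∀ τ : YoungDiagram, τ.card = (m - 2) * (m - 2 + 1) / 2 →
      ∀ rl cl : {x // ¬ p x} → ℕ, IsLabel τ.cells rl cl → w τ ≤ rk Q₂ rl cl) :
    ∃ (b : BF X) (Q : Submodule ℤ (Perm X → ℂ)), Good m i j b Q ∧
      ∀ ν : YoungDiagram, ν.card = m * (m + 1) / 2 → ∀ rl cl : X → ℕ, IsLabel ν.cells rl cl →
        ∑ τ ∈ step true ((m - 2) * (m - 2 + 1) / 2) ν, w τ ≤ rk Q rl cl := by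
  classical
  set K := (m - 2) * (m - 2 + 1) / 2 with hK
  set N := m * (m + 1) / 2 with hN
  obtain ⟨y, hy⟩ := exists_common (by omega) (hs.top p hp)
    ((Finset.range N ×ˢ Finset.range N).powerset)
  obtain ⟨Q, hQ, hmemQ⟩ := peel_good hm hs p hp y b₂ Q₂ h₂
  refine ⟨_, Q, hQ, ?_⟩
  intro ν hν rl cl hl
  set FA := Fn (kform y) (e0 m (resW p i) (resW p j)) (e1 m (resW p i) (resW p j)) with hFA
  -- the data attached to one diagram
  have hdata : ∀ τ ∈ step true K ν, ∃ (g : Perm X) (H : Fin (w τ) → (Perm X → ℂ)),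
      (∀ x, ¬ p x ↔ (rl (g x), cl (g x)) ∈ τ) ∧ (∀ a, H a ∈ Q) ∧
      (∀ a h, H a h ≠ 0 → ∀ x, p ((h * g) x) ↔ p x) ∧
      LinearIndependent ℂ (fun a => fun kB : Perm {x // ¬ p x} =>
        SO rl cl (H a) (Perm.subtypeCongr 1 kB * g⁻¹)) := by
    intro τ hτ
    obtain ⟨hle, hcard, -⟩ := mem_step.mp hτ
    have hsep := sep_of_step hm hν hτ
    have hP : ν.cells \ τ.cells ∈ (Finset.range N ×ˢ Finset.range N).powerset := by
      rw [Finset.mem_powerset]
      refine Finset.sdiff_subset.trans ?_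
      have := cells_sub ν
      rwa [hν] at this
    obtain ⟨rlA, clA, hlA, hneA⟩ := hy _ hP hsep
    obtain ⟨-, -, -, rlB, clB, hlB, -⟩ := T_all (m - 2) {x // ¬ p x} _ _ (hs.low p hp) τ hcard
    obtain ⟨F, hF, hFli⟩ := exists_fam (hw τ hcard rlB clB hlB)
    obtain ⟨rl', cl', hl', hA1, hA2, hB1, hB2, hpl⟩ := glue_label p hle hlA hlB
    obtain ⟨g, hg1, hg2⟩ := label_perm hl hl'
    refine ⟨g, fun a => fun h => glueFn p FA (F a) (h * g), ?_, ?_, ?_, ?_⟩
    · intro x
      rw [hpl x, hg1, hg2]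
    · intro a
      exact hQ.stable g _ (hmemQ (F a) (hF a))
    · intro a h hne
      exact glueFn_ne_zero p _ _ _ hne
    · have hval : ∀ (a : Fin (w τ)) (kB : Perm {x // ¬ p x}),
          SO rl cl (fun h => glueFn p FA (F a) (h * g)) (Perm.subtypeCongr 1 kB * g⁻¹) =
            topL m (resW p i) (resW p j) rlA clA y * SO rlB clB (F a) kB := by
        intro a kB
        rw [SO_translate, inv_mul_cancel_right]
        have e1 : (fun x => rl (g x)) = rl' := funext hg1
        have e2 : (fun x => cl (g x)) = cl' := funext hg2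
        rw [e1, e2, SO_glue p τ rl' cl' hpl, hA1, hA2, hB1, hB2]
        rfl
      have hfun : (fun a => fun kB : Perm {x // ¬ p x} =>
          SO rl cl (fun h => glueFn p FA (F a) (h * g)) (Perm.subtypeCongr 1 kB * g⁻¹)) =
          fun a => topL m (resW p i) (resW p j) rlA clA y • SO rlB clB (F a) := by
        funext a kB
        rw [hval a kB]
        rfl
      rw [hfun]
      rw [Fintype.linearIndependent_iff] at hFli ⊢
      intro c hc a
      have h1 : topL m (resW p i) (resW p j) rlA clA y • ∑ a, c a • SO rlB clB (F a) = 0 := by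
        rw [Finset.smul_sum, ← hc]
        refine Finset.sum_congr rfl (fun a _ => ?_)
        rw [smul_comm]
      exact hFli c ((smul_eq_zero.mp h1).resolve_left hneA) a
  choose! g H hg hHQ hHp hHli using hdata
  -- index type
  let ι := {τ // τ ∈ step true K ν}
  let α : ι → Type := fun τ => Fin (w τ.1)
  let v : (Σ τ : ι, α τ) → (Perm X → ℂ) := fun q => H q.1.1 q.2
  have hv : ∀ q, v q ∈ Q := fun q => hHQ q.1.1 q.1.2 q.2
  have hcard : Fintype.card (Σ τ : ι, α τ) = ∑ τ ∈ step true K ν, w τ := by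
    rw [Fintype.card_sigma]
    simp only [α, Fintype.card_fin]
    exact Finset.sum_coe_sort (step true K ν) w
  rw [← hcard]
  refine card_le_rk v hv ?_
  refine linInd_of_tri (fun q => SO rl cl (v q))
    (fun τ : ι => LinearMap.funLeft ℂ ℂ
      (fun kB : Perm {x // ¬ p x} => Perm.subtypeCongr (1 : Perm {x // p x}) kB * (g τ.1)⁻¹))
    (fun τ : ι => nn τ.1) ?_ ?_
  · rintro ⟨τ, hτ⟩ ⟨τ', hτ'⟩ a hne hlt
    obtain ⟨hle, hc, -⟩ := mem_step.mp hτ
    obtain ⟨hle', hc', -⟩ := mem_step.mp hτ'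
    funext kB
    rw [LinearMap.funLeft_apply, Pi.zero_apply]
    by_contra hval
    rw [SO_apply] at hval
    obtain ⟨ρ, hρ, hρ2⟩ := Finset.exists_ne_zero_of_sum_ne_zero hval
    obtain ⟨π, hπ, hπ2⟩ := Finset.exists_ne_zero_of_sum_ne_zero hρ2
    have h3 := hHp τ hτ a _ (right_ne_zero_of_mul hπ2)
    have h4 : ∀ z, z ∈ ZZ rl cl τ ↔ (ρ * π) z ∈ ZZ rl cl τ' := by
      intro z
      rw [mem_ZZ, mem_ZZ]
      have h5 := h3 ((g τ)⁻¹ z)
      have h6 : (Perm.subtypeCongr (1 : Perm {x // p x}) kB * (g τ')⁻¹ * ρ * π * g τ)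
          ((g τ)⁻¹ z) = Perm.subtypeCongr (1 : Perm {x // p x}) kB
            ((g τ')⁻¹ ((ρ * π) z)) := by
        simp only [Perm.mul_apply]
        rw [app_inv]
      simp only [] at h5
      rw [h6, subtypeCongr_preserve p] at h5
      have h7 := hg τ hτ ((g τ)⁻¹ z)
      have h8 := hg τ' hτ' ((g τ')⁻¹ ((ρ * π) z))
      rw [app_inv] at h7 h8
      rw [← h7, ← h8, h5]
    rcases tri hl hle hle' (hc.trans hc'.symm) hρ hπ h4 with h | h
    · exact hlt h
    · exact hne (Subtype.ext h)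
  · rintro ⟨τ, hτ⟩
    exact hHli τ hτ

end

end Vale.Agent.P197.H528
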