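import Vale.Agent.P197.Bdl.B1

/-!
# P197 with multiplicities: ranks of Young symmetrisers (helper528)

`SO rl cl F` is the row symmetriser composed with the column antisymmetriser, acting on functions
on `Perm X` by right translations; `rk Q rl cl` is the dimension of the span of the image of `Q`.
-/

set_option linter.all false

namespace Vale.Agent.P197.H528

open Equiv Finset Vale.Agent.P197
open scoped TensorProduct

noncomputable section

variable {X : Type} [Fintype X] [DecidableEq X]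

/-- The row symmetriser after the column antisymmetriser (right translations). -/
def SO (rl cl : X → ℕ) : (Perm X → ℂ) →ₗ[ℂ] (Perm X → ℂ) where
  toFun F := fun h => ∑ ρ ∈ stab rl, ∑ π ∈ stab cl, ((Perm.sign π : ℤ) : ℂ) * F (h * ρ * π)
  map_add' F G := by
    funext h
    simp only [Pi.add_apply, mul_add, Finset.sum_add_distrib]
  map_smul' c F := by
    funext h
    simp only [Pi.smul_apply, smul_eq_mul, RingHom.id_apply, Finset.mul_sum]
    refine Finset.sum_congr rfl (fun ρ _ => Finset.sum_congr rfl (fun π _ => ?_))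
    ring

theorem SO_apply (rl cl : X → ℕ) (F : Perm X → ℂ) (h : Perm X) :
    SO rl cl F h = ∑ ρ ∈ stab rl, ∑ π ∈ stab cl, ((Perm.sign π : ℤ) : ℂ) * F (h * ρ * π) := rfl

/-- Right sums as linear maps. -/
def rsumL (f : X → ℕ) (s : Perm X → ℤ) : (Perm X → ℂ) →ₗ[ℂ] (Perm X → ℂ) where
  toFun := rsum f s
  map_add' F G := by
    funext h
    simp only [rsum, Pi.add_apply, mul_add, Finset.sum_add_distrib]
  map_smul' c F := by
    funext h
    simp only [rsum, Pi.smul_apply, smul_eq_mul, RingHom.id_apply, Finset.mul_sum]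
    refine Finset.sum_congr rfl (fun ρ _ => ?_)
    ring

/-- row symmetriser -/
abbrev aL (rl : X → ℕ) : (Perm X → ℂ) →ₗ[ℂ] (Perm X → ℂ) := rsumL rl (fun _ => 1)
/-- column antisymmetriser -/
abbrev bL (cl : X → ℕ) : (Perm X → ℂ) →ₗ[ℂ] (Perm X → ℂ) :=
  rsumL cl (fun π => (Perm.sign π : ℤ))

theorem SO_eq (rl cl : X → ℕ) : SO rl cl = (aL rl).comp (bL cl) := by
  refine LinearMap.ext fun F => funext fun h => ?_
  rw [SO_apply, LinearMap.comp_apply]
  change _ = ∑ ρ ∈ stab rl, ((1 : ℤ) : ℂ) * ∑ π ∈ stab cl, ((Perm.sign π : ℤ) : ℂ) * F (h * ρ * π)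
  simp

/-- The dimension of the span of the image of `Q` under the Young symmetriser. -/
def rk (Q : Submodule ℤ (Perm X → ℂ)) (rl cl : X → ℕ) : ℕ :=
  Module.finrank ℂ (Submodule.span ℂ ((SO rl cl) '' (Q : Set (Perm X → ℂ))))

/-- complex span -/
abbrev cs (Q : Submodule ℤ (Perm X → ℂ)) : Submodule ℂ (Perm X → ℂ) :=
  Submodule.span ℂ (Q : Set (Perm X → ℂ))

theorem rk_eq (Q : Submodule ℤ (Perm X → ℂ)) (rl cl : X → ℕ) :
    rk Q rl cl = Module.finrank ℂ ((cs Q).map (SO rl cl)) := by
  unfold rk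
  rw [Submodule.map_span]

theorem rsumL_cs (Q : Submodule ℤ (Perm X → ℂ))
    (hQ : ∀ (g : Perm X), ∀ F ∈ Q, (fun h => F (h * g)) ∈ Q) (f : X → ℕ) (s : Perm X → ℤ)
    {F : Perm X → ℂ} (hF : F ∈ cs Q) : rsumL f s F ∈ cs Q := by
  have hle : cs Q ≤ (cs Q).comap (rsumL f s) := by
    rw [Submodule.span_le]
    intro G hG
    exact Submodule.subset_span (rsum_mem Q hQ f s hG)
  exact hle hF

/-- The flip lemma for ranks. -/
theorem flip_rank (U : Submodule ℂ (Perm X → ℂ)) (rl cl : X → ℕ)
    (hb : ∀ F ∈ U, bL cl F ∈ U) :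
    Module.finrank ℂ (U.map ((aL rl).comp (bL cl))) ≤
      Module.finrank ℂ (U.map ((bL cl).comp (aL rl))) := by
  have hsign : ∀ π : Perm X, ((Perm.sign π⁻¹ : ℤˣ) : ℤ) = (Perm.sign π : ℤ) := by
    intro π
    simp only [Perm.sign_inv]
  -- `b` is injective on `a b U`
  have hinj : ∀ w ∈ U.map ((aL rl).comp (bL cl)), bL cl w = 0 → w = 0 := by
    rintro w ⟨F, hF, rfl⟩ hw
    simp only [LinearMap.comp_apply] at hw ⊢
    apply eq_zero_of_ip
    have e1 : ip (rsum rl (fun _ => 1) (bL cl F)) (rsum rl (fun _ => 1) (bL cl F)) =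
        ip (bL cl F) (rsum rl (fun _ => 1) (rsum rl (fun _ => 1) (bL cl F))) :=
      ip_rsum rl (fun _ => 1) (fun _ => rfl) _ _
    have haa : rsum rl (fun _ => 1) (rsum rl (fun _ => 1) (bL cl F)) =
        ((stab rl).card : ℂ) • rsum rl (fun _ => 1) (bL cl F) := by
      funext h
      simp only [rsum, Int.cast_one, one_mul, Pi.smul_apply, smul_eq_mul]
      have : ∀ π ∈ stab rl, ∑ x ∈ stab rl, (bL cl F) (h * π * x) =
          ∑ x ∈ stab rl, (bL cl F) (h * x) := by
        intro π hπ
        refine Finset.sum_bij' (fun x _ => π * x) (fun x _ => π⁻¹ * x) ?_ ?_ ?_ ?_ ?_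
        · intro x hx
          rw [mem_stab] at hπ hx ⊢
          intro z
          rw [Perm.mul_apply, hπ, hx]
        · intro x hx
          have hπ' := inv_mem_stab' hπ
          rw [mem_stab] at hπ' hx ⊢
          intro z
          rw [Perm.mul_apply, hπ', hx]
        · intro x _
          simp
        · intro x _
          simp
        · intro x _
          rw [mul_assoc]
      rw [Finset.sum_congr rfl this, Finset.sum_const, nsmul_eq_mul]
    have e2 : ip (rsum cl (fun π => (Perm.sign π : ℤ)) F) (rsum rl (fun _ => 1) (bL cl F)) =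
        ip F (rsum cl (fun π => (Perm.sign π : ℤ)) (rsum rl (fun _ => 1) (bL cl F))) :=
      ip_rsum cl (fun π => (Perm.sign π : ℤ)) hsign F _
    have hw' : rsum cl (fun π => (Perm.sign π : ℤ)) (rsum rl (fun _ => 1) (bL cl F)) = 0 := hw
    change ip (rsum rl (fun _ => 1) (bL cl F)) (rsum rl (fun _ => 1) (bL cl F)) = 0
    rw [e1, haa]
    have e3 : ip (bL cl F) (((stab rl).card : ℂ) • rsum rl (fun _ => 1) (bL cl F)) =
        ((stab rl).card : ℂ) * ip (bL cl F) (rsum rl (fun _ => 1) (bL cl F)) := by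
      unfold ip
      rw [Finset.mul_sum]
      refine Finset.sum_congr rfl (fun h _ => ?_)
      simp only [Pi.smul_apply, smul_eq_mul, star_mul', star_natCast]
      ring
    rw [e3]
    have e4 : ip (bL cl F) (rsum rl (fun _ => 1) (bL cl F)) = 0 := by
      change ip (rsum cl (fun π => (Perm.sign π : ℤ)) F) (rsum rl (fun _ => 1) (bL cl F)) = 0
      rw [e2, hw']
      unfold ip
      simp
    rw [e4, mul_zero]
  have hmap : (U.map ((aL rl).comp (bL cl))).map (bL cl) ≤ U.map ((bL cl).comp (aL rl)) := by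
    rintro _ ⟨_, ⟨F, hF, rfl⟩, rfl⟩
    exact ⟨bL cl F, hb F hF, rfl⟩
  have h1 : Module.finrank ℂ (U.map ((aL rl).comp (bL cl))) =
      Module.finrank ℂ ((U.map ((aL rl).comp (bL cl))).map (bL cl)) := by
    refine LinearEquiv.finrank_eq (LinearEquiv.ofBijective
      (((bL cl).domRestrict (U.map ((aL rl).comp (bL cl)))).codRestrict
        ((U.map ((aL rl).comp (bL cl))).map (bL cl)) (fun w => ⟨w.1, w.2, rfl⟩)) ⟨?_, ?_⟩)
    · rw [injective_iff_map_eq_zero]
      intro w hw
      have := congrArg Subtype.val hw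
      exact Subtype.ext (hinj w.1 w.2 this)
    · rintro ⟨_, w, hw, rfl⟩
      exact ⟨⟨w, hw⟩, rfl⟩
  rw [h1]
  exact Submodule.finrank_mono hmap

end

end Vale.Agent.P197.H528
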