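import Vale.Agent.P197.H528.Final

/-!
# P197 with multiplicities: the diagrams `(n - 1, 1)` and its transpose (helper505)
-/

set_option linter.all false

namespace Vale.Agent.P197.H528.Std

open Equiv Finset Vale.Agent.P197
open scoped TensorProduct

noncomputable section

/-! ### Forms -/

section Forms

variable {X : Type}

open Classical in
/-- The kernel: equal words with value `s` at `y`. -/
def yk (y : X) (s : ℕ) : (X → ℕ) → (X → ℕ) → ℂ := fun u u' => if u = u' ∧ u y = s then 1 else 0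

open Classical in
/-- The kernel: equal words. -/
def yt : (X → ℕ) → (X → ℕ) → ℂ := fun u u' => if u = u' then 1 else 0

theorem kform_wordRep (y : (X → ℕ) → (X → ℕ) → ℂ) (ρ : Perm X) (v w : WM X) :
    kform y (wordRep X ρ v) (wordRep X ρ w) =
      kform (fun u u' => y (u ∘ ⇑(ρ⁻¹ : Perm X)) (u' ∘ ⇑(ρ⁻¹ : Perm X))) v w := by
  induction v using Finsupp.induction_linear with
  | zero => simp only [map_zero, LinearMap.zero_apply]
  | add v v' h h' => simp only [map_add, LinearMap.add_apply, h, h']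
  | single u a =>
    induction w using Finsupp.induction_linear with
    | zero => simp only [map_zero]
    | add w w' h h' => simp only [map_add, h, h']
    | single u' a' =>
      rw [wordRep_single, wordRep_single, kform_single, kform_single]

theorem comp_inv_inj (g : Perm X) {u u' : X → ℕ}
    (h : u ∘ ⇑(g⁻¹ : Perm X) = u' ∘ ⇑(g⁻¹ : Perm X)) : u = u' := by
  funext x
  have := congrFun h (g x)
  simpa using this

theorem kform_yk (y : X) (s : ℕ) (g : Perm X) (v w : WM X) :
    kform (yk y s) (wordRep X g v) (wordRep X g w) = kform (yk (g⁻¹ y) s) v w := by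
  classical
  rw [kform_wordRep]
  congr 3
  funext u u'
  unfold yk
  refine if_congr ?_ rfl rfl
  constructor
  · rintro ⟨h, h'⟩
    exact ⟨comp_inv_inj g h, h'⟩
  · rintro ⟨rfl, h'⟩
    exact ⟨rfl, h'⟩

/-- The words of staircase content. -/
def Cont [Fintype X] (m : ℕ) (u : X → ℕ) : Prop :=
  (∀ x, u x < m) ∧ ∀ s < m, (Finset.univ.filter fun x => u x = s).card = m - s

/-- The span of the words of staircase content. -/
def WC (X : Type) [Fintype X] (m : ℕ) : Submodule ℂ (WM X) :=
  Submodule.span ℂ {v | ∃ u : X → ℕ, Cont m u ∧ v = Finsupp.single u (1 : ℂ)}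

variable [Fintype X]

theorem sum_yk_point {m : ℕ} {v : WM X} (hv : v ∈ WC X m) (w : WM X) {s : ℕ} (hs : s < m) :
    ∑ y : X, kform (yk y s) v w = ((m : ℂ) - s) * kform yt v w := by
  classical
  induction hv using Submodule.span_induction with
  | mem v hv =>
    obtain ⟨u, hu, rfl⟩ := hv
    induction w using Finsupp.induction_linear with
    | zero => simp
    | add w w' h h' => simp only [map_add, Finset.sum_add_distrib, h, h', mul_add]
    | single u' a' =>
      simp only [kform_single, yk, yt]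
      by_cases huu : u = u'
      · subst huu
        simp only [true_and, if_true, mul_one, one_mul]
        rw [← Finset.mul_sum, Finset.sum_ite, Finset.sum_const_zero, add_zero, Finset.sum_const,
          hu.2 s hs, nsmul_eq_mul, Nat.cast_sub hs.le]
        ring
      · simp [huu]
  | zero => simp
  | add v v' _ _ h h' => simp only [map_add, LinearMap.add_apply, Finset.sum_add_distrib, h, h', mul_add]
  | smul a v _ h =>
    simp only [map_smul, LinearMap.smul_apply, smul_eq_mul, ← Finset.mul_sum, h]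
    ring

theorem sum_yk_value {m : ℕ} {v : WM X} (hv : v ∈ WC X m) (w : WM X) (y : X) :
    ∑ s : Fin m, kform (yk y s) v w = kform yt v w := by
  classical
  induction hv using Submodule.span_induction with
  | mem v hv =>
    obtain ⟨u, hu, rfl⟩ := hv
    induction w using Finsupp.induction_linear with
    | zero => simp
    | add w w' h h' => simp only [map_add, Finset.sum_add_distrib, h, h']
    | single u' a' =>
      simp only [kform_single, yk, yt]
      by_cases huu : u = u'
      · subst huu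
        simp only [true_and, if_true, mul_one, one_mul]
        rw [Finset.sum_eq_single (⟨u y, hu.1 y⟩ : Fin m)]
        · simp
        · intro s _ hs
          rw [if_neg, mul_zero]
          intro h
          exact hs (Fin.ext h.symm)
        · intro h
          exact absurd (Finset.mem_univ _) h
      · simp [huu]
  | zero => simp
  | add v v' _ _ h h' => simp only [map_add, LinearMap.add_apply, Finset.sum_add_distrib, h, h']
  | smul a v _ h =>
    simp only [map_smul, LinearMap.smul_apply, smul_eq_mul, ← Finset.mul_sum, h]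

end Forms

/-! ### Contents -/

section Contents

variable {X : Type} [Fintype X] [DecidableEq X]

omit [DecidableEq X] in
theorem cont_comp {m : ℕ} {u : X → ℕ} (hu : Cont m u) (g : Perm X) : Cont m (u ∘ ⇑g) := by
  classical
  refine ⟨fun x => hu.1 _, fun s hs => ?_⟩
  rw [← hu.2 s hs]
  refine Finset.card_bij' (fun x _ => g x) (fun x _ => g⁻¹ x) ?_ ?_ ?_ ?_
  · intro x hx
    simpa using hx
  · intro x hx
    simpa using hx
  · intro x _
    simp
  · intro x _
    simp

omit [DecidableEq X] in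
theorem cont_r0 {m : ℕ} {i j : X → ℕ} (hs : IsStair m i j) : Cont m (r0 m i j) := by
  classical
  refine ⟨fun x => ?_, fun s hsm => ?_⟩
  · have := hs.lt x
    unfold r0
    omega
  · rw [← Finset.card_range (m - s)]
    refine Finset.card_bij (fun x _ => j x) ?_ ?_ ?_
    · intro x hx
      have h1 : r0 m i j x = s := by simpa using hx
      have := Conj.r0_add hs x
      rw [Finset.mem_range]
      omega
    · intro x hx y hy hxy
      have h1 : r0 m i j x = s := by simpa using hx
      have h2 : r0 m i j y = s := by simpa using hy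
      have := Conj.r0_add hs x
      have := Conj.r0_add hs y
      exact hs.inj x y (by omega) hxy
    · intro b hb
      rw [Finset.mem_range] at hb
      obtain ⟨x, h1, h2⟩ := hs.surj (m - 1 - s - b) b (by omega)
      refine ⟨x, ?_, h2⟩
      have := Conj.r0_add hs x
      simp only [Finset.mem_filter, Finset.mem_univ, true_and]
      omega

theorem polyt_WC {m : ℕ} (c : X → ℕ) {r : X → ℕ} (hr : Cont m r) : polyt c r ∈ WC X m := by
  unfold polyt
  refine Submodule.sum_mem _ (fun π _ => Submodule.smul_mem _ _ ?_)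
  exact Submodule.subset_span ⟨_, cont_comp hr _, rfl⟩

theorem theta_WC {m : ℕ} {i j : X → ℕ} (hs : IsStair m i j) (v : WM X) :
    Conj.theta m i j v ∈ WC X m := by
  induction v using Finsupp.induction_linear with
  | zero =>
    rw [map_zero]
    exact Submodule.zero_mem _
  | add v v' h h' =>
    rw [map_add]
    exact Submodule.add_mem _ h h'
  | single u a =>
    have : Finsupp.single u a = a • Finsupp.single u (1 : ℂ) := by simp
    rw [this, map_smul, Conj.theta_single]
    refine Submodule.smul_mem _ _ (Submodule.sum_mem _ fun π _ => Submodule.smul_mem _ _ ?_)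
    exact Submodule.subset_span ⟨_, cont_comp (cont_r0 hs) _, rfl⟩

theorem specht_le_WC (n m : ℕ) : spechtSub n (staircase m) ≤ WC (Fin n) m := by
  unfold spechtSub
  rw [Submodule.span_le]
  rintro v ⟨t, rfl⟩
  refine polyt_WC _ ?_
  have hmem : ∀ x, (t x).1.1 + (t x).1.2 < m := fun x =>
    mem_staircase.mp ((YoungDiagram.mem_cells _).mp (t x).2)
  have hs : IsStair m (fun x => m - 1 - (t x).1.1 - (t x).1.2) (fun x => (t x).1.2) := by
    refine ⟨fun x => ?_, fun x y h1 h2 => ?_, fun a b hab => ?_⟩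
    · have := hmem x
      omega
    · have := hmem x
      have := hmem y
      exact t.injective (Subtype.ext (Prod.ext (by omega) h2))
    · refine ⟨t.symm ⟨(m - 1 - a - b, b), ?_⟩, ?_, ?_⟩
      · rw [YoungDiagram.mem_cells, mem_staircase]
        change m - 1 - a - b + b < m
        omega
      · simp only [apply_symm_apply]
        omega
      · simp
  have := cont_r0 hs
  have h2 : r0 m (fun x => m - 1 - (t x).1.1 - (t x).1.2) (fun x => (t x).1.2) =
      fun x => (t x).1.1 := by
    funext x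
    have := hmem x
    simp only [r0]
    omega
  rwa [h2] at this

end Contents

/-! ### Linear algebra -/

section LinAlg

variable {U : Type*} [AddCommMonoid U] [Module ℂ U]

/-- An integral matrix which is the identity modulo `2` is invertible over `ℂ`. -/
theorem surj_of_two_adic {m : ℕ} (L : U →ₗ[ℂ] (Fin m → ℂ)) (u : Fin m → U) (ε : Fin m → ℂ)
    (hε : ∀ r, ε r * ε r = 1)
    (h : ∀ r s : Fin m, ∃ z : ℤ, L (u r) s = ε r * ((if r = s then 1 else 0) + 2 * (z : ℂ))) :
    Function.Surjective L := by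
  classical
  choose z hz using h
  let A : Matrix (Fin m) (Fin m) ℤ := Matrix.of fun r s => (if r = s then 1 else 0) + 2 * z r s
  have hAe : ∀ r s, A r s = (if r = s then 1 else 0) + 2 * z r s := fun _ _ => rfl
  have hA : A.det ≠ 0 := by
    intro h0
    have h1 : ((Int.castRingHom (ZMod 2)).mapMatrix A).det = 1 := by
      have : (Int.castRingHom (ZMod 2)).mapMatrix A = 1 := by
        ext r s
        rw [RingHom.mapMatrix_apply, Matrix.map_apply, hAe, map_add, map_mul, Matrix.one_apply]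
        have h2 : (Int.castRingHom (ZMod 2)) 2 = 0 := by decide
        rw [h2, zero_mul, add_zero]
        split_ifs <;> simp
      rw [this, Matrix.det_one]
    rw [← RingHom.map_det, h0, map_zero] at h1
    exact absurd h1 (by decide)
  let B : Matrix (Fin m) (Fin m) ℂ := (Int.castRingHom ℂ).mapMatrix A
  have hBe : ∀ r s, B r s = ((if r = s then 1 else 0) + 2 * z r s : ℂ) := by
    intro r s
    change (Int.castRingHom ℂ) (A r s) = _
    rw [hAe]
    split_ifs <;> simp
  have hB : IsUnit B.det := by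
    rw [isUnit_iff_ne_zero]
    change ((Int.castRingHom ℂ).mapMatrix A).det ≠ 0
    rw [← RingHom.map_det]
    simpa using hA
  have hLB : ∀ r, L (ε r • u r) = B r := by
    intro r
    funext s
    rw [map_smul, Pi.smul_apply, smul_eq_mul, hz, ← mul_assoc, hε, one_mul, hBe]
  intro y
  refine ⟨∑ r, (Matrix.vecMul y B⁻¹) r • (ε r • u r), ?_⟩
  rw [map_sum]
  have h5 : ∀ r, L ((Matrix.vecMul y B⁻¹) r • (ε r • u r)) = (Matrix.vecMul y B⁻¹) r • B r := by
    intro r
    rw [map_smul, hLB]
  simp only [h5]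
  have : ∑ r, (Matrix.vecMul y B⁻¹) r • B r = Matrix.vecMul (Matrix.vecMul y B⁻¹) B := by
    funext s
    simp [Matrix.vecMul, dotProduct, Finset.sum_apply]
  rw [this, Matrix.vecMul_vecMul, Matrix.nonsing_inv_mul _ hB, Matrix.vecMul_one]

/-- The rank of `y ↦ n y - (∑ y) ρ` is at least `m - 1`. -/
theorem rank_P {m : ℕ} (n : ℂ) (hn : n ≠ 0) (ρ : Fin m → ℂ)
    (P : (Fin m → ℂ) →ₗ[ℂ] (Fin m → ℂ)) (hP : ∀ y s, P y s = n * y s - ρ s * ∑ r, y r) :
    m - 1 ≤ Module.finrank ℂ (LinearMap.range P) := by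
  have h1 := LinearMap.finrank_range_add_finrank_ker P
  rw [Module.finrank_fin_fun] at h1
  have h2 : LinearMap.ker P ≤ Submodule.span ℂ {ρ} := by
    intro y hy
    rw [LinearMap.mem_ker] at hy
    rw [Submodule.mem_span_singleton]
    refine ⟨(∑ r, y r) / n, ?_⟩
    funext s
    have h3 := hP y s
    rw [hy, Pi.zero_apply] at h3
    rw [Pi.smul_apply, smul_eq_mul]
    field_simp
    linear_combination h3
  have h3 := (Submodule.finrank_mono h2).trans (finrank_span_le_card ({ρ} : Set (Fin m → ℂ)))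
  simp only [Set.toFinset_singleton, Finset.card_singleton] at h3
  omega

end LinAlg

/-! ### Functionals on the tensor square -/

section Functionals

variable {n m : ℕ}

/-- A multiplicative sign `χ` and a `χ`-equivariant map `Θ`. -/
structure Tw (m : ℕ) {n : ℕ} (χ : Perm (Fin n) → ℂ) (Θ : WM (Fin n) →ₗ[ℂ] WM (Fin n)) :
    Prop where
  mul : ∀ g h, χ (g * h) = χ g * χ h
  sq : ∀ g, χ g * χ g = 1
  equiv : ∀ g v, Θ (wordRep (Fin n) g v) = χ g • wordRep (Fin n) g (Θ v)
  wc : ∀ v ∈ spechtSub n (staircase m), Θ v ∈ WC (Fin n) m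

/-- The tensor square. -/
abbrev UU (n m : ℕ) : Type := spechtSub n (staircase m) ⊗[ℂ] spechtSub n (staircase m)

/-- The tensor square as a representation. -/
abbrev sg (n m : ℕ) : Representation ℂ (Perm (Fin n)) (UU n m) :=
  (specht n (staircase m)).tprod (specht n (staircase m))

/-- The functional: equal words with value `s` at `y`. -/
def lf (m : ℕ) (Θ : WM (Fin n) →ₗ[ℂ] WM (Fin n)) (y : Fin n) (s : ℕ) : UU n m →ₗ[ℂ] ℂ :=
  tensorForm (staircase m) (staircase m) ((kform (yk y s)).comp Θ)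

/-- The total functional. -/
def lt (m : ℕ) (Θ : WM (Fin n) →ₗ[ℂ] WM (Fin n)) : UU n m →ₗ[ℂ] ℂ :=
  tensorForm (staircase m) (staircase m) ((kform yt).comp Θ)

variable {χ : Perm (Fin n) → ℂ} {Θ : WM (Fin n) →ₗ[ℂ] WM (Fin n)}

theorem lf_equiv (h : Tw m χ Θ) (g : Perm (Fin n)) (y : Fin n) (s : ℕ) (u : UU n m) :
    lf m Θ y s (sg n m g u) = χ g * lf m Θ (g⁻¹ y) s u := by
  induction u using TensorProduct.induction_on with
  | zero => simp
  | add u u' hu hu' => rw [map_add, map_add, map_add, hu, hu', mul_add]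
  | tmul v w =>
    unfold lf sg
    rw [Representation.tprod_apply, TensorProduct.map_tmul, tensorForm_tmul, tensorForm_tmul]
    change kform (yk y s) (Θ (wordRep (Fin n) g v.1)) (wordRep (Fin n) g w.1) =
      χ g * kform (yk (g⁻¹ y) s) (Θ v.1) w.1
    rw [h.equiv, map_smul, LinearMap.smul_apply, kform_yk, smul_eq_mul]

theorem lf_point (h : Tw m χ Θ) {s : ℕ} (hs : s < m) (u : UU n m) :
    ∑ y, lf m Θ y s u = ((m : ℂ) - s) * lt m Θ u := by
  induction u using TensorProduct.induction_on with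
  | zero => simp
  | add u u' hu hu' => simp only [map_add, Finset.sum_add_distrib, hu, hu', mul_add]
  | tmul v w =>
    unfold lf lt
    simp only [tensorForm_tmul]
    exact sum_yk_point (h.wc v.1 v.2) w.1 hs

theorem lf_value (h : Tw m χ Θ) (y : Fin n) (u : UU n m) :
    ∑ s : Fin m, lf m Θ y s u = lt m Θ u := by
  induction u using TensorProduct.induction_on with
  | zero => simp
  | add u u' hu hu' => simp only [map_add, Finset.sum_add_distrib, hu, hu']
  | tmul v w =>
    unfold lf lt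
    simp only [tensorForm_tmul]
    exact sum_yk_value (h.wc v.1 v.2) w.1 y

/-! ### Averaging -/

/-- The `χ`-symmetriser of the stabilizer of the labelling `p`. -/
def Hs (m : ℕ) (χ : Perm (Fin n) → ℂ) (p : Fin n → ℕ) : UU n m →ₗ[ℂ] UU n m :=
  ∑ g ∈ stab p, χ g • sg n m g

theorem Hs_apply (p : Fin n → ℕ) (u : UU n m) :
    Hs m χ p u = ∑ g ∈ stab p, χ g • sg n m g u := by
  unfold Hs
  simp [LinearMap.sum_apply]

theorem lf_Hs (h : Tw m χ Θ) (p : Fin n → ℕ) (y : Fin n) (s : ℕ) (u : UU n m) :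
    lf m Θ y s (Hs m χ p u) = ∑ g ∈ stab p, lf m Θ (g⁻¹ y) s u := by
  rw [Hs_apply, map_sum]
  refine Finset.sum_congr rfl fun g _ => ?_
  rw [map_smul, lf_equiv h, smul_eq_mul, ← mul_assoc, h.sq, one_mul]

/-- The average over the stabilizer of `x1`. -/
theorem avg (p : Fin n → ℕ) (x0 x1 : Fin n) (hne : x0 ≠ x1)
    (hp : ∀ g : Perm (Fin n), g ∈ stab p ↔ g x1 = x1) (F : Fin n → ℂ) :
    ((n : ℂ) - 1) * ∑ g ∈ stab p, F (g⁻¹ x0) = ((stab p).card : ℂ) * (∑ x, F x - F x1) := by
  classical
  have key : ∀ x, x ≠ x1 → ∑ g ∈ stab p, F (g⁻¹ x) = ∑ g ∈ stab p, F (g⁻¹ x0) := by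
    intro x hx
    refine Finset.sum_bij' (fun g _ => Equiv.swap x x0 * g) (fun g _ => Equiv.swap x x0 * g)
      ?_ ?_ ?_ ?_ ?_
    · intro g hg
      rw [hp] at hg ⊢
      rw [Perm.mul_apply, hg, Equiv.swap_apply_of_ne_of_ne hx.symm hne.symm]
    · intro g hg
      rw [hp] at hg ⊢
      rw [Perm.mul_apply, hg, Equiv.swap_apply_of_ne_of_ne hx.symm hne.symm]
    · intro g _
      simp
    · intro g _
      simp
    · intro g _
      rw [mul_inv_rev, Equiv.swap_inv, Perm.mul_apply, Equiv.swap_apply_right]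
  have h1 : ∑ x ∈ Finset.univ.erase x1, ∑ g ∈ stab p, F (g⁻¹ x) =
      ((n : ℂ) - 1) * ∑ g ∈ stab p, F (g⁻¹ x0) := by
    rw [Finset.sum_congr rfl fun x hx => key x (Finset.ne_of_mem_erase hx), Finset.sum_const,
      Finset.card_erase_of_mem (Finset.mem_univ _), Finset.card_univ, Fintype.card_fin,
      nsmul_eq_mul, Nat.cast_sub (by have := x1.2; omega), Nat.cast_one]
  have h2 : ∀ g ∈ stab p, ∑ x ∈ Finset.univ.erase x1, F (g⁻¹ x) = ∑ x, F x - F x1 := by
    intro g hg
    rw [hp] at hg
    have h3 : g⁻¹ x1 = x1 := by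
      rw [Perm.inv_eq_iff_eq, hg]
    have h4 : ∑ x, F (g⁻¹ x) = ∑ x, F x := Equiv.sum_comp (g⁻¹ : Perm (Fin n)) F
    rw [← h4, ← Finset.sum_erase_add _ _ (Finset.mem_univ x1), h3, add_sub_cancel_right]
  rw [← h1, Finset.sum_comm, Finset.sum_congr rfl h2, Finset.sum_const, nsmul_eq_mul]

/-- The operator `H (1 - χ(τ) τ) H`. -/
def Dop (m : ℕ) (χ : Perm (Fin n) → ℂ) (p : Fin n → ℕ) (τ : Perm (Fin n)) :
    UU n m →ₗ[ℂ] UU n m :=
  (Hs m χ p).comp (((LinearMap.id : UU n m →ₗ[ℂ] UU n m) + (-χ τ) • sg n m τ).comp (Hs m χ p))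

theorem lf_Dop (h : Tw m χ Θ) (p : Fin n → ℕ) (x0 x1 : Fin n) (hne : x0 ≠ x1)
    (hp : ∀ g : Perm (Fin n), g ∈ stab p ↔ g x1 = x1) {s : ℕ} (hs : s < m) (u : UU n m) :
    ((n : ℂ) - 1) * lf m Θ x1 s (Dop m χ p (Equiv.swap x0 x1) u) =
      ((stab p).card : ℂ) * (stab p).card *
        (n * lf m Θ x1 s u - ((m : ℂ) - s) * lt m Θ u) := by
  have h1 : ∀ u, lf m Θ x1 s (Hs m χ p u) = ((stab p).card : ℂ) * lf m Θ x1 s u := by
    intro u
    rw [lf_Hs h]
    have : ∀ g ∈ stab p, lf m Θ (g⁻¹ x1) s u = lf m Θ x1 s u := by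
      intro g hg
      rw [hp] at hg
      have h3 : g⁻¹ x1 = x1 := by
        rw [Perm.inv_eq_iff_eq, hg]
      rw [h3]
    rw [Finset.sum_congr rfl this, Finset.sum_const, nsmul_eq_mul]
  have h2 := avg p x0 x1 hne hp (fun x => lf m Θ x s u)
  rw [lf_point h hs] at h2
  unfold Dop
  rw [LinearMap.comp_apply, h1, LinearMap.comp_apply, LinearMap.add_apply, map_add,
    LinearMap.id_apply, LinearMap.smul_apply, map_smul, lf_equiv h, smul_eq_mul, h1,
    Equiv.swap_inv, Equiv.swap_apply_right, lf_Hs h]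
  linear_combination (-((stab p).card : ℂ)) * h2 - ((n : ℂ) - 1) * ((stab p).card : ℂ) *
    (∑ g ∈ stab p, lf m Θ (g⁻¹ x0) s u) * h.sq (Equiv.swap x0 x1)

/-- The rank of `Dop`. -/
theorem rank_Dop (h : Tw m χ Θ) (p : Fin n → ℕ) (x0 x1 : Fin n) (hne : x0 ≠ x1)
    (hp : ∀ g : Perm (Fin n), g ∈ stab p ↔ g x1 = x1)
    (hsurj : Function.Surjective (LinearMap.pi fun s : Fin m => lf m Θ x1 (s : ℕ))) :
    m - 1 ≤ Module.finrank ℂ (LinearMap.range (Dop m χ p (Equiv.swap x0 x1))) := by
  classical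
  let L : UU n m →ₗ[ℂ] (Fin m → ℂ) := LinearMap.pi fun s : Fin m => lf m Θ x1 (s : ℕ)
  let K : ℂ := ((stab p).card : ℂ) * (stab p).card
  let P : (Fin m → ℂ) →ₗ[ℂ] (Fin m → ℂ) :=
    { toFun := fun y s => K * n * y s - K * ((m : ℂ) - (s : ℕ)) * ∑ r, y r
      map_add' := by
        intro y y'
        funext s
        simp only [Pi.add_apply, Finset.sum_add_distrib]
        ring
      map_smul' := by
        intro a y
        funext s
        simp only [Pi.smul_apply, smul_eq_mul, RingHom.id_apply, ← Finset.mul_sum]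
        ring }
  have hn : (n : ℂ) ≠ 0 := by
    have := x1.2
    exact_mod_cast (by omega : n ≠ 0)
  have hK : K ≠ 0 := by
    have h0 : ((stab p).card : ℂ) ≠ 0 := by
      have : (1 : Perm (Fin n)) ∈ stab p := Conj.one_mem_stab p
      exact_mod_cast (Finset.card_pos.mpr ⟨_, this⟩).ne'
    exact mul_ne_zero h0 h0
  have hP := rank_P (K * n) (mul_ne_zero hK hn) (fun s : Fin m => K * ((m : ℂ) - (s : ℕ))) P
    (fun _ _ => rfl)
  refine hP.trans ?_
  have hle : LinearMap.range P ≤ (LinearMap.range (Dop m χ p (Equiv.swap x0 x1))).map L := by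
    rintro _ ⟨y, rfl⟩
    obtain ⟨u, hu⟩ := hsurj y
    have hn1 : (n : ℂ) - 1 ≠ 0 := by
      have h2 : 2 ≤ n := by
        have h3 : (x0 : ℕ) ≠ x1 := fun hh => hne (Fin.ext hh)
        have := x0.2
        have := x1.2
        omega
      intro h0
      have h3 : (n : ℂ) = 1 := by linear_combination h0
      have h4 : n = 1 := by exact_mod_cast h3
      omega
    refine ⟨((n : ℂ) - 1) • Dop m χ p (Equiv.swap x0 x1) u, Submodule.smul_mem _ _ ⟨u, rfl⟩, ?_⟩
    rw [map_smul]
    funext s
    rw [Pi.smul_apply, smul_eq_mul]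
    change ((n : ℂ) - 1) * lf m Θ x1 s (Dop m χ p (Equiv.swap x0 x1) u) =
      K * n * y s - K * ((m : ℂ) - (s : ℕ)) * ∑ r, y r
    rw [lf_Dop h p x0 x1 hne hp s.2, ← hu, ← lf_value h x1 u]
    simp only [LinearMap.pi_apply, K]
    ring
  exact (Submodule.finrank_mono hle).trans (Submodule.finrank_map_le _ _)

end Functionals

/-! ### Values -/

section Values

variable {X : Type} [Fintype X] [DecidableEq X]

theorem eq_one_of_words {m : ℕ} {i j : X → ℕ} (hs : IsStair m i j) {π ρ : Perm X}
    (hπ : π ∈ stab j) (hρ : ρ ∈ stab i)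
    (h : r0 m i j ∘ ⇑(π⁻¹ : Perm X) = r0 m i j ∘ ⇑(ρ⁻¹ : Perm X)) : π = 1 ∧ ρ = 1 := by
  have hρ' : ∀ x, i (ρ⁻¹ x) = i x := fun x => (mem_stab.mp (Conj.inv_mem_stab hρ)) x
  have hπ' : ∀ x, j (π⁻¹ x) = j x := fun x => (mem_stab.mp (Conj.inv_mem_stab hπ)) x
  have hf : ∀ x, r0 m i j (π⁻¹ x) = r0 m i j (ρ⁻¹ x) := fun x => congrFun h x
  have key : ∀ x, r0 m i j (ρ⁻¹ x) = r0 m i j x := by
    refine Conj.eq_r0 hs (fun x => r0 m i j (ρ⁻¹ x)) ?_ ?_ ?_
    · intro x
      have := Conj.r0_add hs (ρ⁻¹ x)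
      have := hρ' x
      change r0 m i j (ρ⁻¹ x) + i x < m
      omega
    · intro x y hxy hr
      have h2 := Conj.r0_add hs (ρ⁻¹ x)
      have h3 := Conj.r0_add hs (ρ⁻¹ y)
      have h4 := hρ' x
      have h5 := hρ' y
      exact ρ⁻¹.injective (hs.inj _ _ (by omega) (by omega))
    · intro x y hxy hr
      have hr' : r0 m i j (π⁻¹ x) = r0 m i j (π⁻¹ y) := by
        rw [hf, hf]
        exact hr
      have h2 := Conj.r0_add hs (π⁻¹ x)
      have h3 := Conj.r0_add hs (π⁻¹ y)
      have h4 := hπ' x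
      have h5 := hπ' y
      exact π⁻¹.injective (hs.inj _ _ (by omega) (by omega))
  constructor
  · rw [← inv_eq_one]
    ext x
    have h2 := Conj.r0_add hs (π⁻¹ x)
    have h3 := Conj.r0_add hs x
    have h4 := hπ' x
    have h5 := hf x
    have h6 := key x
    rw [Perm.one_apply]
    exact hs.inj _ _ (by omega) (by omega)
  · rw [← inv_eq_one]
    ext x
    have h2 := Conj.r0_add hs (ρ⁻¹ x)
    have h3 := Conj.r0_add hs x
    have h4 := hρ' x
    have h6 := key x
    rw [Perm.one_apply]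
    exact hs.inj _ _ (by omega) (by omega)

open Classical in
theorem val_e0_e1 {m : ℕ} {i j : X → ℕ} (hs : IsStair m i j) (y : X) (s : ℕ) :
    kform (yk y s) (e0 m i j) (e1 m i j) = if r0 m i j y = s then 1 else 0 := by
  have h := bilin_polyt (kform (yk y s)) 1 1 j i (r0 m i j) (r0 m i j)
  simp only [map_one, Module.End.one_apply, one_mul, kform_single] at h
  unfold e0 e1
  rw [h, Finset.sum_eq_single (1 : Perm X)]
  · rw [Finset.sum_eq_single (1 : Perm X)]
    · simp [yk]
    · intro ρ hρ hne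
      have : yk y s (r0 m i j ∘ ⇑((1 : Perm X)⁻¹ : Perm X)) (r0 m i j ∘ ⇑(ρ⁻¹ : Perm X)) = 0 := by
        unfold yk
        rw [if_neg]
        rintro ⟨h1, -⟩
        exact hne (eq_one_of_words hs (Conj.one_mem_stab j) hρ h1).2
      rw [this, mul_zero, mul_zero]
    · intro h1
      exact absurd (Conj.one_mem_stab i) h1
  · intro π hπ hne
    refine Finset.sum_eq_zero fun ρ hρ => ?_
    have : yk y s (r0 m i j ∘ ⇑(π⁻¹ : Perm X)) (r0 m i j ∘ ⇑(ρ⁻¹ : Perm X)) = 0 := by
      unfold yk
      rw [if_neg]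
      rintro ⟨h1, -⟩
      exact hne (eq_one_of_words hs hπ hρ h1).1
    rw [this, mul_zero, mul_zero]
  · intro h1
    exact absurd (Conj.one_mem_stab j) h1

theorem val_int (y : X) (s : ℕ) (g g' : Perm X) (c c' r r' : X → ℕ) :
    kform (yk y s) (wordRep X g (polyt c r)) (wordRep X g' (polyt c' r')) ∈
      (Int.castRingHom ℂ).range := by
  classical
  rw [bilin_polyt]
  refine Subring.sum_mem _ fun π _ => Subring.sum_mem _ fun π' _ =>
    Subring.mul_mem _ ⟨_, rfl⟩ (Subring.mul_mem _ ⟨_, rfl⟩ ?_)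
  rw [kform_single, one_mul, one_mul]
  unfold yk
  split_ifs
  · exact Subring.one_mem _
  · exact Subring.zero_mem _

open Classical in
theorem val_theta {m : ℕ} {i j : X → ℕ} (hs : IsStair m i j) : ∃ ε : ℂ, ε * ε = 1 ∧
    ∀ (y : X) (s : ℕ), ∃ z : ℤ, kform (yk y s) (Conj.theta m i j (e0 m i j)) (e1 m i j) =
      ε * ((if r0 m i j y = s then 1 else 0) + 2 * (z : ℂ)) := by
  obtain ⟨κ, hκ⟩ := Conj.theta_e0 hs
  refine ⟨((Perm.sign κ : ℤ) : ℂ), Conj.sgn_sq κ, fun y s => ?_⟩
  have h1 : ∑ π ∈ (stab j).filter (fun π => Perm.sign π = -1),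
      kform (yk y s) (wordRep X π (e1 m i j)) (e1 m i j) ∈ (Int.castRingHom ℂ).range := by
    refine Subring.sum_mem _ fun π _ => ?_
    have := val_int y s π 1 i i (r0 m i j) (r0 m i j)
    rw [map_one, Module.End.one_apply] at this
    exact this
  obtain ⟨z, hz⟩ := h1
  refine ⟨z, ?_⟩
  rw [hκ, map_smul, LinearMap.smul_apply, map_add, LinearMap.add_apply, map_smul,
    LinearMap.smul_apply, map_sum, LinearMap.sum_apply, val_e0_e1 hs, smul_eq_mul, smul_eq_mul,
    ← hz]
  simp

end Values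

section Twists

variable {n m : ℕ}

theorem tw_one (n m : ℕ) : Tw m (fun _ : Perm (Fin n) => (1 : ℂ)) LinearMap.id where
  mul _ _ := by simp
  sq _ := by simp
  equiv _ _ := by simp
  wc v hv := specht_le_WC n m hv

theorem tw_sgn {i j : Fin n → ℕ} (hs : IsStair m i j) :
    Tw m (fun g : Perm (Fin n) => ((Perm.sign g : ℤ) : ℂ)) (Conj.theta m i j) where
  mul g h := Conj.sgn_mul g h
  sq g := Conj.sgn_sq g
  equiv g v := Conj.theta_equiv m i j g v
  wc v _ := theta_WC hs v

open Classical in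
theorem surj_lf {χ : Perm (Fin n) → ℂ} {Θ : WM (Fin n) →ₗ[ℂ] WM (Fin n)} (h : Tw m χ Θ)
    {i j : Fin n → ℕ} (hs : IsStair m i j) (x1 : Fin n) (ε : ℂ) (hε : ε * ε = 1)
    (hval : ∀ (y : Fin n) (s : ℕ), ∃ z : ℤ, kform (yk y s) (Θ (e0 m i j)) (e1 m i j) =
      ε * ((if r0 m i j y = s then 1 else 0) + 2 * (z : ℂ))) :
    Function.Surjective (LinearMap.pi fun s : Fin m => lf m Θ x1 (s : ℕ)) := by
  have hy : ∀ r : Fin m, ∃ y : Fin n, r0 m i j y = (r : ℕ) := by
    intro r
    obtain ⟨x, h1, h2⟩ := hs.surj (m - 1 - r) 0 (by have := r.2; omega)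
    refine ⟨x, ?_⟩
    have := Conj.r0_add hs x
    have := r.2
    omega
  choose y hy using hy
  let u0 : UU n m := (⟨e0 m i j, e0_mem hs⟩ : spechtSub n (staircase m)) ⊗ₜ[ℂ]
    (⟨e1 m i j, e1_mem hs⟩ : spechtSub n (staircase m))
  refine surj_of_two_adic _ (fun r => sg n m (Equiv.swap x1 (y r)) u0)
    (fun r => χ (Equiv.swap x1 (y r)) * ε) ?_ ?_
  · intro r
    linear_combination ε * ε * h.sq (Equiv.swap x1 (y r)) + hε
  · intro r s
    obtain ⟨z, hz⟩ := hval (y r) s
    refine ⟨z, ?_⟩
    rw [LinearMap.pi_apply, lf_equiv h, Equiv.swap_inv, Equiv.swap_apply_left]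
    unfold lf
    rw [tensorForm_tmul]
    change _ * kform (yk (y r) s) (Θ (e0 m i j)) (e1 m i j) = _
    rw [hz, hy, ← mul_assoc]
    congr 3
    simp [Fin.ext_iff]

end Twists

/-! ### Hooks of length two in one direction -/

section Hook

variable {n m : ℕ}

/-- Labels of the cells `(0, c)` and `(1, 0)`. -/
structure HL (p q : Fin n → ℕ) (x0 x1 : Fin n) : Prop where
  ne : x0 ≠ x1
  hp : ∀ g : Perm (Fin n), g ∈ stab p ↔ g x1 = x1
  hq : stab q = {1, Equiv.swap x0 x1}

theorem exists_HL {S : Finset (ℕ × ℕ)} {p q : Fin n → ℕ} (hl : IsLabel S p q)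
    (h1 : (1, 0) ∈ S) (h0 : (0, 0) ∈ S) (hS : ∀ c ∈ S, c.1 = 0 ∨ c = (1, 0)) :
    ∃ x0 x1, HL p q x0 x1 := by
  obtain ⟨x1, hx1, hx1'⟩ := hl.surj _ h1
  obtain ⟨x0, hx0, hx0'⟩ := hl.surj _ h0
  dsimp only at hx1 hx1' hx0 hx0'
  have hne : x0 ≠ x1 := by
    rintro rfl
    omega
  have hcell : ∀ x, x ≠ x1 → p x = 0 := by
    intro x hx
    rcases hS _ (hl.mem x) with h | h
    · exact h
    · exfalso
      have h2 : p x = 1 ∧ q x = 0 := by simpa using h
      exact hx (hl.inj _ _ (by omega) (by omega))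
  refine ⟨x0, x1, hne, fun g => ?_, ?_⟩
  · rw [mem_stab]
    constructor
    · intro h
      by_contra hg
      have h2 := h x1
      rw [hcell _ hg, hx1] at h2
      omega
    · intro h x
      by_cases hx : x = x1
      · rw [hx, h]
      · have hgx : g x ≠ x1 := by
          intro h3
          rw [← h] at h3
          exact hx (g.injective h3)
        rw [hcell _ hx, hcell _ hgx]
  · ext g
    rw [mem_stab, Finset.mem_insert, Finset.mem_singleton]
    constructor
    · intro h
      have hfix : ∀ x, x ≠ x0 → x ≠ x1 → g x = x := by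
        intro x hx hx'
        have h2 := h x
        have h3 : p x = 0 := hcell x hx'
        have h4 : q x ≠ 0 := by
          intro h5
          exact hx (hl.inj _ _ (by omega) (by omega))
        have h6 : g x ≠ x1 := by
          intro h7
          rw [h7] at h2
          omega
        exact hl.inj _ _ (by rw [hcell _ h6, h3]) h2
      by_cases hg : g x0 = x0
      · left
        have hg1 : g x1 = x1 := by
          by_contra hg1
          by_cases h8 : g x1 = x0
          · exact hne (g.injective (hg.trans h8.symm))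
          · exact hg1 (g.injective (hfix (g x1) h8 hg1))
        ext x
        rw [Perm.one_apply]
        by_cases hx : x = x0
        · rw [hx, hg]
        · by_cases hx' : x = x1
          · rw [hx', hg1]
          · rw [hfix x hx hx']
      · right
        have hg0 : g x0 = x1 := by
          by_contra h8
          exact hg (g.injective (hfix (g x0) hg h8))
        have hg1 : g x1 = x0 := by
          by_contra h8
          by_cases h9 : g x1 = x1
          · exact hne (g.injective (hg0.trans h9.symm))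
          · exact h9 (g.injective (hfix (g x1) h8 h9))
        ext x
        by_cases hx : x = x0
        · rw [hx, hg0, Equiv.swap_apply_left]
        · by_cases hx' : x = x1
          · rw [hx', hg1, Equiv.swap_apply_right]
          · rw [hfix x hx hx', Equiv.swap_apply_of_ne_of_ne hx hx']
    · rintro (rfl | rfl)
      · intro x
        rfl
      · intro x
        by_cases hx : x = x0
        · rw [hx, Equiv.swap_apply_left]
          omega
        · by_cases hx' : x = x1
          · rw [hx', Equiv.swap_apply_right]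
            omega
          · rw [Equiv.swap_apply_of_ne_of_ne hx hx']

theorem swap_ne_one {x0 x1 : Fin n} (h : x0 ≠ x1) : (1 : Perm (Fin n)) ≠ Equiv.swap x0 x1 := by
  intro h1
  exact h (Equiv.swap_eq_one_iff.mp h1.symm)

set_option maxSynthPendingDepth 3 in
/-- Row case. -/
theorem range_row {p q : Fin n → ℕ} {x0 x1 : Fin n} (h : HL p q x0 x1) :
    LinearMap.range (Dop m (fun _ => (1 : ℂ)) p (Equiv.swap x0 x1)) ≤
      (LinearMap.range (CR (sg n m) q p)).map (Hs m (fun _ => (1 : ℂ)) p) := by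
  rintro _ ⟨u, rfl⟩
  refine ⟨CR (sg n m) q p u, ⟨u, rfl⟩, ?_⟩
  have h1 : CR (sg n m) q p u = Hs m (fun _ => (1 : ℂ)) p u +
      (-1 : ℂ) • sg n m (Equiv.swap x0 x1) (Hs m (fun _ => (1 : ℂ)) p u) := by
    rw [CR_apply, h.hq, Finset.sum_pair (swap_ne_one h.ne), Hs_apply]
    simp only [Perm.sign_one, Units.val_one, Int.cast_one, one_smul, map_one,
      Module.End.one_apply, Perm.sign_swap h.ne, Units.val_neg, Int.cast_neg]
  rw [h1]
  rfl

set_option maxSynthPendingDepth 3 in
/-- Column case. -/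
theorem range_col {p q : Fin n → ℕ} {x0 x1 : Fin n} (h : HL p q x0 x1) :
    LinearMap.range (Dop m (fun g => ((Perm.sign g : ℤ) : ℂ)) p (Equiv.swap x0 x1)) ≤
      LinearMap.range (CR (sg n m) p q) := by
  rintro _ ⟨u, rfl⟩
  refine ⟨Hs m (fun g => ((Perm.sign g : ℤ) : ℂ)) p u, ?_⟩
  have h1 : ∀ v : UU n m, CR (sg n m) p q v = Hs m (fun g => ((Perm.sign g : ℤ) : ℂ)) p
      (v + sg n m (Equiv.swap x0 x1) v) := by
    intro v
    rw [CR_apply, h.hq, Finset.sum_pair (swap_ne_one h.ne), Hs_apply]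
    simp only [map_one, Module.End.one_apply]
  rw [h1]
  unfold Dop
  have h2 : -((Perm.sign (Equiv.swap x0 x1) : ℤ) : ℂ) = 1 := by
    rw [Perm.sign_swap h.ne]
    simp
  rw [LinearMap.comp_apply, LinearMap.comp_apply, LinearMap.add_apply, LinearMap.smul_apply]
  change _ = Hs m (fun g => ((Perm.sign g : ℤ) : ℂ)) p (_ +
    (-((Perm.sign (Equiv.swap x0 x1) : ℤ) : ℂ)) • _)
  rw [h2, one_smul, LinearMap.id_apply]

/-- A staircase labelling of the points. -/
theorem exists_stair {n m : ℕ} (hn : n = m * (m + 1) / 2) :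
    ∃ i j : Fin n → ℕ, IsStair m i j := by
  have hcard : Fintype.card (staircase m).cells = n := by
    rw [Fintype.card_coe, hn]
    exact card_staircase m
  let t : (staircase m).cells ≃ Fin n := Fintype.equivFinOfCardEq hcard
  refine ⟨fun x => (t.symm x).1.1, fun x => (t.symm x).1.2, ?_, ?_, ?_⟩
  · intro x
    exact mem_staircase.mp ((YoungDiagram.mem_cells _).mp (t.symm x).2)
  · intro x x' h1 h2
    exact t.symm.injective (Subtype.ext (Prod.ext h1 h2))
  · intro a b hab
    refine ⟨t ⟨(a, b), (YoungDiagram.mem_cells _).mpr (mem_staircase.mpr hab)⟩, ?_, ?_⟩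
    · simp
    · simp

/-- The cells of a diagram with all but one cell in the first row. -/
theorem cells_of_row {n : ℕ} (hn : 2 ≤ n) (ν : YoungDiagram) (hν : ν.card = n)
    (h : ν.rowLen 0 + 1 = n) :
    (1, 0) ∈ ν.cells ∧ (0, 0) ∈ ν.cells ∧ ∀ c ∈ ν.cells, c.1 = 0 ∨ c = (1, 0) := by
  classical
  have hrow : (ν.row 0).card = ν.rowLen 0 := (YoungDiagram.rowLen_eq_card ν).symm
  have hsub : ν.row 0 ⊆ ν.cells := by
    intro c hc
    exact (YoungDiagram.mem_cells _).mpr (YoungDiagram.mem_row_iff.mp hc).1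
  have hd : (ν.cells \ ν.row 0).card = 1 := by
    rw [Finset.card_sdiff_of_subset hsub, hrow]
    have : ν.cells.card = n := hν
    omega
  obtain ⟨c, hc⟩ := Finset.card_eq_one.mp hd
  have h00 : (0, 0) ∈ ν := by
    rw [YoungDiagram.mem_iff_lt_rowLen]
    omega
  have hmem : c ∈ ν.cells \ ν.row 0 := by
    rw [hc]
    exact Finset.mem_singleton_self c
  have hc1 : c ∈ ν := (YoungDiagram.mem_cells _).mp (Finset.mem_sdiff.mp hmem).1
  have hc2 : c.1 ≠ 0 := by
    intro h0
    exact (Finset.mem_sdiff.mp hmem).2 (YoungDiagram.mem_row_iff.mpr ⟨hc1, h0⟩)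
  have h10 : (1, 0) ∈ ν := ν.up_left_mem (by omega) (Nat.zero_le _) hc1
  have hc10 : (1, 0) = c := by
    have : ((1, 0) : ℕ × ℕ) ∈ ν.cells \ ν.row 0 := by
      rw [Finset.mem_sdiff]
      refine ⟨(YoungDiagram.mem_cells _).mpr h10, ?_⟩
      intro h0
      have := (YoungDiagram.mem_row_iff.mp h0).2
      simp at this
    rw [hc] at this
    exact Finset.mem_singleton.mp this
  refine ⟨(YoungDiagram.mem_cells _).mpr h10, (YoungDiagram.mem_cells _).mpr h00, ?_⟩
  intro d hd'
  by_cases h0 : d.1 = 0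
  · exact Or.inl h0
  · right
    have : d ∈ ν.cells \ ν.row 0 := by
      rw [Finset.mem_sdiff]
      refine ⟨hd', fun h1 => h0 (YoungDiagram.mem_row_iff.mp h1).2⟩
    rw [hc, Finset.mem_singleton] at this
    rw [this, hc10]

theorem isLabel_of_equiv {n : ℕ} {ν : YoungDiagram} (t : Fin n ≃ ν.cells) :
    IsLabel ν.cells (fun x => (t x).1.1) (fun x => (t x).1.2) := by
  refine ⟨fun x => (t x).2, fun x y h1 h2 => t.injective (Subtype.ext (Prod.ext h1 h2)), ?_⟩
  intro c hc
  exact ⟨t.symm ⟨c, hc⟩, by simp, by simp⟩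

theorem two_le {m : ℕ} (hm : 2 ≤ m) : 2 ≤ m * (m + 1) / 2 := by
  rw [Nat.le_div_iff_mul_le (by norm_num)]
  nlinarith

end Hook

end

end Vale.Agent.P197.H528.Std

namespace Vale.Agent.P197.H528

open Equiv Finset Vale.Agent.P197 Std
open scoped TensorProduct

set_option maxSynthPendingDepth 3 in
/-- The Kronecker coefficient of `(N - 1, 1)`. -/
theorem std_le (m : ℕ) (hm : 2 ≤ m) (ν : YoungDiagram) (hν : ν.card = m * (m + 1) / 2)
    (h : ν.rowLen 0 + 1 = m * (m + 1) / 2) :
    m - 1 ≤ kron (m * (m + 1) / 2) (staircase m) (staircase m) ν := by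
  classical
  have hn := two_le hm
  generalize hN : m * (m + 1) / 2 = n at *
  obtain ⟨i, j, hs⟩ := exists_stair hN.symm
  have hcard : Fintype.card ν.cells = n := by
    rw [Fintype.card_coe]
    exact hν
  let t : Fin n ≃ ν.cells := (Fintype.equivFinOfCardEq hcard).symm
  obtain ⟨h1, h0, hS⟩ := cells_of_row hn ν hν h
  obtain ⟨x0, x1, hl⟩ := exists_HL (isLabel_of_equiv t) h1 h0 hS
  have hsurj : Function.Surjective
      (LinearMap.pi fun s : Fin m => lf m (LinearMap.id : WM (Fin n) →ₗ[ℂ] WM (Fin n)) x1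
        (s : ℕ)) := by
    refine surj_lf (tw_one n m) hs x1 1 (by simp) ?_
    intro y s
    refine ⟨0, ?_⟩
    rw [LinearMap.id_apply, val_e0_e1 hs]
    simp
  have h2 := rank_Dop (tw_one n m) _ x0 x1 hl.ne hl.hp hsurj
  refine h2.trans ((Submodule.finrank_mono (range_row hl)).trans
    ((Submodule.finrank_map_le _ _).trans ?_))
  exact finrank_CR_le (sg n m) t

set_option maxSynthPendingDepth 3 in
/-- The Kronecker coefficient of the transpose of `(N - 1, 1)`. -/
theorem std_le_col (m : ℕ) (hm : 2 ≤ m) (ν : YoungDiagram) (hν : ν.card = m * (m + 1) / 2)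
    (h : ν.colLen 0 + 1 = m * (m + 1) / 2) :
    m - 1 ≤ kron (m * (m + 1) / 2) (staircase m) (staircase m) ν := by
  classical
  have hn := two_le hm
  generalize hN : m * (m + 1) / 2 = n at *
  obtain ⟨i, j, hs⟩ := exists_stair hN.symm
  have hcard : Fintype.card ν.cells = n := by
    rw [Fintype.card_coe]
    exact hν
  let t : Fin n ≃ ν.cells := (Fintype.equivFinOfCardEq hcard).symm
  obtain ⟨h1, h0, hS⟩ := cells_of_row hn ν.transpose (by rw [Saxl.card_transpose]; exact hν)
    (by rw [YoungDiagram.rowLen_transpose]; exact h)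
  obtain ⟨x0, x1, hl⟩ := exists_HL (Conj.label_swap (isLabel_of_equiv t)) h1 h0 hS
  obtain ⟨ε, hε, hval⟩ := val_theta hs
  have hsurj := surj_lf (tw_sgn hs) hs x1 ε hε hval
  have h2 := rank_Dop (tw_sgn hs) _ x0 x1 hl.ne hl.hp hsurj
  refine h2.trans ((Submodule.finrank_mono (range_col hl)).trans ?_)
  exact finrank_CR_le (sg n m) t

end Vale.Agent.P197.H528
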