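import Vale.Agent.P197.H528.Rank
import Vale.Agent.P197.H528.Defs

/-!
# P197 with multiplicities: triangularity (helper528)
-/

set_option linter.all false

namespace Vale.Agent.P197.H528

open Equiv Finset Vale.Agent.P197

noncomputable section

theorem le_of_sum {X : Type*} [DecidableEq X] (L L' : Finset X) (φ : X → ℤ)
    (h1 : ∀ x ∈ L, φ x < 0) (h2 : ∀ x, x ∉ L → 0 ≤ φ x) :
    ∑ x ∈ L, φ x ≤ ∑ x ∈ L', φ x := by
  have e1 : ∑ x ∈ L', φ x = ∑ x ∈ L' ∩ L, φ x + ∑ x ∈ L' \ L, φ x :=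
    (Finset.sum_inter_add_sum_sdiff L' L φ).symm
  have e2 : ∑ x ∈ L, φ x = ∑ x ∈ L ∩ L', φ x + ∑ x ∈ L \ L', φ x :=
    (Finset.sum_inter_add_sum_sdiff L L' φ).symm
  have e3 : 0 ≤ ∑ x ∈ L' \ L, φ x :=
    Finset.sum_nonneg (fun x hx => h2 x (Finset.mem_sdiff.1 hx).2)
  have e4 : ∑ x ∈ L \ L', φ x ≤ 0 :=
    Finset.sum_nonpos (fun x hx => (h1 x (Finset.mem_sdiff.1 hx).1).le)
  rw [Finset.inter_comm] at e1
  linarith

/-- The sum of the row indices of the cells. -/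
def nn (τ : YoungDiagram) : ℕ := ∑ c ∈ τ.cells, c.1

variable {X : Type} [Fintype X] [DecidableEq X]

/-- The points whose cell lies in `τ`. -/
def ZZ (rl cl : X → ℕ) (τ : YoungDiagram) : Finset X :=
  univ.filter fun z => (rl z, cl z) ∈ τ

theorem mem_ZZ {rl cl : X → ℕ} {τ : YoungDiagram} {z : X} :
    z ∈ ZZ rl cl τ ↔ (rl z, cl z) ∈ τ := by
  simp [ZZ]

theorem sum_ZZ {ν : YoungDiagram} {rl cl : X → ℕ} (hl : IsLabel ν.cells rl cl)
    {τ : YoungDiagram} (hτ : τ ≤ ν) {M : Type*} [AddCommMonoid M] (f : ℕ × ℕ → M) :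
    ∑ z ∈ ZZ rl cl τ, f (rl z, cl z) = ∑ c ∈ τ.cells, f c := by
  refine Finset.sum_bij (fun z _ => (rl z, cl z)) ?_ ?_ ?_ ?_
  · intro z hz
    exact mem_ZZ.mp hz
  · intro z _ z' _ h
    rw [Prod.mk.injEq] at h
    exact hl.inj z z' h.1 h.2
  · intro c hc
    obtain ⟨z, h1, h2⟩ := hl.surj c (hτ hc)
    refine ⟨z, mem_ZZ.mpr ?_, ?_⟩
    · rw [h1, h2]
      exact hc
    · rw [h1, h2]
  · intro z _
    rfl

theorem card_ZZ {ν : YoungDiagram} {rl cl : X → ℕ} (hl : IsLabel ν.cells rl cl)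
    {τ : YoungDiagram} (hτ : τ ≤ ν) : (ZZ rl cl τ).card = τ.card := by
  have := sum_ZZ hl hτ (fun _ => (1 : ℕ))
  simpa using this

theorem rowcount_ZZ {ν : YoungDiagram} {rl cl : X → ℕ} (hl : IsLabel ν.cells rl cl)
    {τ : YoungDiagram} (hτ : τ ≤ ν) (r : ℕ) :
    ((ZZ rl cl τ).filter fun z => rl z = r).card = τ.rowLen r := by
  have h := sum_ZZ hl hτ (fun c => if c.1 = r then (1 : ℕ) else 0)
  rw [Finset.card_filter]
  simp only at h
  rw [h, ← Finset.card_filter]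
  rw [YoungDiagram.rowLen_eq_card]
  rfl

/-- **Triangularity.** -/
theorem tri {ν : YoungDiagram} {rl cl : X → ℕ} (hl : IsLabel ν.cells rl cl)
    {τ τ' : YoungDiagram} (hτ : τ ≤ ν) (hτ' : τ' ≤ ν) (hc : τ.card = τ'.card)
    {ρ π : Perm X} (hρ : ρ ∈ stab rl) (hπ : π ∈ stab cl)
    (h : ∀ z, z ∈ ZZ rl cl τ ↔ (ρ * π) z ∈ ZZ rl cl τ') :
    nn τ < nn τ' ∨ τ = τ' := by
  classical
  rw [mem_stab] at hρ hπ
  set L := ZZ rl cl τ with hL
  set L' : Finset X := L.image π with hL'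
  have hL'2 : L' = (ZZ rl cl τ').image (ρ⁻¹ : Perm X) := by
    ext y
    simp only [hL', Finset.mem_image]
    constructor
    · rintro ⟨x, hx, rfl⟩
      exact ⟨ρ (π x), (h x).mp hx, by simp⟩
    · rintro ⟨x, hx, rfl⟩
      refine ⟨π⁻¹ (ρ⁻¹ x), ?_, by simp⟩
      rw [h]
      simpa using hx
  let φ : X → ℤ := fun x => (rl x : ℤ) - τ.colLen (cl x)
  have h1 : ∀ x ∈ L, φ x < 0 := by
    intro x hx
    have : (rl x, cl x) ∈ τ := mem_ZZ.mp hx
    have : rl x < τ.colLen (cl x) := YoungDiagram.mem_iff_lt_colLen.mp this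
    have h' : (rl x : ℤ) < τ.colLen (cl x) := by exact_mod_cast this
    simp only [φ]
    linarith
  have h2 : ∀ x, x ∉ L → 0 ≤ φ x := by
    intro x hx
    have : ¬ rl x < τ.colLen (cl x) := fun hlt =>
      hx (mem_ZZ.mpr (YoungDiagram.mem_iff_lt_colLen.mpr hlt))
    have h' : (τ.colLen (cl x) : ℤ) ≤ rl x := by exact_mod_cast not_lt.1 this
    simp only [φ]
    linarith
  have h3 : L'.card = L.card := Finset.card_image_of_injective _ π.injective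
  have h4 : ∑ x ∈ L', ((τ.colLen (cl x) : ℕ) : ℤ) = ∑ x ∈ L, ((τ.colLen (cl x) : ℕ) : ℤ) := by
    rw [hL', Finset.sum_image (fun a _ b _ hab => π.injective hab)]
    refine Finset.sum_congr rfl (fun x _ => ?_)
    rw [hπ x]
  have h5 : ∑ x ∈ L', (rl x : ℤ) = nn τ' := by
    rw [hL'2, Finset.sum_image (fun a _ b _ hab => (ρ⁻¹ : Perm X).injective hab)]
    have : ∀ x ∈ ZZ rl cl τ', ((rl ((ρ⁻¹ : Perm X) x) : ℕ) : ℤ) = (rl x : ℤ) := by
      intro x _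
      have := hρ (ρ⁻¹ x)
      rw [app_inv] at this
      rw [this]
    rw [Finset.sum_congr rfl this]
    have := sum_ZZ hl hτ' (fun c => ((c.1 : ℕ) : ℤ))
    simp only at this
    rw [this, nn]
    push_cast
    rfl
  have h6 : ∑ x ∈ L, (rl x : ℤ) = nn τ := by
    have := sum_ZZ hl hτ (fun c => ((c.1 : ℕ) : ℤ))
    simp only at this
    rw [hL, this, nn]
    push_cast
    rfl
  have h7 : ∑ x ∈ L, φ x ≤ ∑ x ∈ L', φ x := le_of_sum L L' φ h1 h2
  have h8 : ∑ x ∈ L', φ x = nn τ' - ∑ x ∈ L, ((τ.colLen (cl x) : ℕ) : ℤ) := by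
    simp only [φ]
    rw [Finset.sum_sub_distrib, h5, h4]
  have h9 : ∑ x ∈ L, φ x = nn τ - ∑ x ∈ L, ((τ.colLen (cl x) : ℕ) : ℤ) := by
    simp only [φ]
    rw [Finset.sum_sub_distrib, h6]
  rcases lt_or_ge (nn τ) (nn τ') with hlt | hge
  · exact Or.inl hlt
  right
  have h10 : (nn τ' : ℤ) ≤ nn τ := by exact_mod_cast hge
  have h11 : ∑ x ∈ L', φ x = ∑ x ∈ L, φ x := by
    rw [h8, h9] at h7 ⊢
    linarith
  have key : L' = L := eq_of_sum_eq L L' φ h1 h2 h3 h11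
  -- `ρ` maps `L` onto `ZZ τ'`
  have hmap : (ZZ rl cl τ') = L.image ρ := by
    rw [← key, hL'2, Finset.image_image]
    ext y
    simp
  have hrow : ∀ r, τ.rowLen r = τ'.rowLen r := by
    intro r
    rw [← rowcount_ZZ hl hτ r, ← rowcount_ZZ hl hτ' r, hmap]
    have : (L.image ρ).filter (fun z => rl z = r) = (L.filter fun z => rl z = r).image ρ := by
      ext z
      simp only [Finset.mem_filter, Finset.mem_image]
      constructor
      · rintro ⟨⟨x, hx, rfl⟩, h⟩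
        exact ⟨x, ⟨hx, by rw [← hρ x]; exact h⟩, rfl⟩
      · rintro ⟨x, ⟨hx, h⟩, rfl⟩
        exact ⟨⟨x, hx, rfl⟩, by rw [hρ x]; exact h⟩
    rw [this, Finset.card_image_of_injective _ ρ.injective]
  apply YoungDiagram.ext
  ext c
  rw [YoungDiagram.mem_cells, YoungDiagram.mem_cells]
  obtain ⟨a, b⟩ := c
  rw [YoungDiagram.mem_iff_lt_rowLen, YoungDiagram.mem_iff_lt_rowLen, hrow]

end

end Vale.Agent.P197.H528
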